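import Vale.Agent.P042.H359.BridgeN

set_option autoImplicit false

/-!
Target S: the cells of the state in the form `(z, z + V]`, `n = w` in `ZMod q`, and the choice of
the class.
-/

namespace Vale.Agent.P042.H359

open Finset Vale.Agent.P042.H779 Vale.Agent.P042.H779.Ab Vale.Agent.P042.H599
  Vale.Agent.P042.H945

set_option linter.unusedSectionVars false

theorem cellZ_eq {q : ℕ} [NeZero q] (w : ZMod q) (z V : ℕ) :
    (Ioc (z : ℤ) ((z : ℤ) + (V : ℤ))).filter (fun n : ℤ => (n : ZMod q) = w) =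
      cellZ q w.val (z + 1) (z + V) := by
  ext n
  simp only [cellZ, mem_filter, mem_Ioc, mem_Icc]
  have h : (n : ZMod q) = w ↔ n % (q : ℤ) = (w.val : ℤ) := by
    rw [← ZMod.val_intCast]
    constructor
    · intro h; rw [h]
    · intro h
      exact ZMod.val_injective _ (by exact_mod_cast h)
  rw [h]
  push_cast
  constructor
  · rintro ⟨⟨h1, h2⟩, h3⟩
    exact ⟨⟨by omega, by omega⟩, h3⟩
  · rintro ⟨⟨h1, h2⟩, h3⟩
    exact ⟨⟨by omega, by omega⟩, h3⟩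

section
variable {N' : ℕ} {mu : ℕ → ℝ} {G : ℤ → ℝ}

theorem cmass_eq (hG : ∀ n : ℤ, G n = if 1 ≤ n then (N' : ℝ) * mu n.toNat else 0)
    {q : ℕ} [NeZero q] (w : ZMod q) {z V : ℕ} (hz : z + V ≤ N') :
    cmass G q w z V = N' * ms mu N' (cl q w.val (z + 1) (z + V)) := by
  have h1 : cmass G q w z V = ∑ n ∈ cellZ q w.val (z + 1) (z + V), G n := by
    unfold cmass
    rw [cellZ_eq]
  rw [h1, sum_cellZ' hG (by omega) hz]

variable {k : ℕ} {κ C2 l : ℝ} {E C : ℕ}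

/-- cells of the state are not heavy (form of `two_cells`) -/
theorem cells_S (B : BN k κ C2 E C l) (hk : 1 ≤ k) (hκ : 0 < κ) (hC2 : 0 ≤ C2)
    (h : StS1 k κ C (Real.exp l) N' mu)
    (hG : ∀ n : ℤ, G n = if 1 ≤ n then (N' : ℝ) * mu n.toNat else 0)
    {q : ℕ} [NeZero q] (hqP : (q : ℝ) ≤ Real.exp (C2 * l ^ E)) (z : ℤ) (V : ℕ) (hz : 0 ≤ z)
    (hzN : z + V ≤ N') (hV : N' ≤ 1000 * V) (w : ZMod q) :
    q * cmass G q w z V ≤ (1 + 1 / 10000) * V := by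
  obtain ⟨a, rfl⟩ : ∃ a : ℕ, z = a := ⟨z.toNat, (Int.toNat_of_nonneg hz).symm⟩
  have haV : a + V ≤ N' := by exact_mod_cast hzN
  have hq : 1 ≤ q := Nat.one_le_iff_ne_zero.2 (NeZero.ne q)
  have h1 := bridge_cell (c := w.val) (u := a + 1) (v := a + V) B hk hκ hC2 h hq
    (ZMod.val_lt w) hqP (by omega) haV (by omega)
  have e : a + V + 1 - (a + 1) = V := by omega
  rw [e] at h1
  rw [cmass_eq hG w haV]
  calc (q : ℝ) * (N' * ms mu N' (cl q w.val (a + 1) (a + V)))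
      = q * ms mu N' (cl q w.val (a + 1) (a + V)) * N' := by ring
    _ ≤ _ := h1

/-- **choice of the class** for two windows of the state -/
theorem choose_S (B : BN k κ C2 E C l) (hk : 1 ≤ k) (hκ : 0 < κ) (hC2 : 0 ≤ C2)
    (h : StS1 k κ C (Real.exp l) N' mu)
    (hG : ∀ n : ℤ, G n = if 1 ≤ n then (N' : ℝ) * mu n.toNat else 0)
    {q : ℕ} [NeZero q] (hqP : (q : ℝ) ≤ Real.exp (C2 * l ^ E)) {h0 : ℕ}
    (hN : N' ≤ 1000 * h0)
    (z1 z2 : ℤ) (hz1 : 0 ≤ z1) (hz1N : z1 + h0 ≤ N') (h11 : z1 = 0 ∨ h0 ≤ z1)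
    (h12 : z1 + h0 = N' ∨ z1 + h0 + h0 ≤ N') (hz2 : 0 ≤ z2) (hz2N : z2 + h0 ≤ N')
    (h21 : z2 = 0 ∨ h0 ≤ z2) (h22 : z2 + h0 = N' ∨ z2 + h0 + h0 ≤ N') (s : ℤ) :
    ∃ w : ZMod q, (h0 : ℝ) / 2 ≤ q * cmass G q w z1 h0 ∧
      (h0 : ℝ) / 2 ≤ q * cmass G q (w - (s : ZMod q)) z2 h0 := by
  refine two_cells (ε := 1 / 10000) (sum_all hG h.law) (fun z V hz hzN hV w => ?_)
    (by norm_num) (by norm_num) hN z1 z2 hz1 hz1N h11 h12 hz2 hz2N h21 h22 s
  exact cells_S B hk hκ hC2 h hG hqP z V hz hzN (by omega) w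

/-- **everything about one chosen cell** of the state -/
theorem cell_facts (B : BN k κ C2 E C l) (hk : 1 ≤ k) (hκ : 0 < κ) (hC2 : 0 ≤ C2) (hC : 18 ≤ C)
    (h : StS1 k κ C (Real.exp l) N' mu)
    (hG : ∀ n : ℤ, G n = if 1 ≤ n then (N' : ℝ) * mu n.toNat else 0)
    {ι : Type*} [Fintype ι] [DecidableEq ι] {prm : ι → ℕ} [∀ i, NeZero (prm i)]
    (hinj : Function.Injective prm) (hW : ∀ i, prm i ∈ WS (Real.exp l))
    {q : ℕ} [NeZero q] (hqc : ∀ i, Nat.Coprime q (prm i))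
    (hqP : (q : ℝ) ≤ Real.exp (C2 * l ^ E)) {h0 : ℕ} (hN : N' ≤ 1000 * h0) {z : ℤ}
    (hz : 0 ≤ z) (hzN : z + h0 ≤ N') {w : ZMod q}
    (hmass : (h0 : ℝ) / 2 ≤ q * cmass G q w z h0) {S : Finset ℤ}
    (hS : S = (Ioc z (z + h0)).filter (fun n : ℤ => (n : ZMod q) = w)) :
    S ⊆ Icc (1 : ℤ) N' ∧ 0 < ∑ n ∈ S, G n ∧ (∀ n ∈ S, 0 ≤ G n) ∧
    (∀ n ∈ S, G n ≤ Real.exp (50 * (Real.exp l / l ^ C) + 1)) ∧
    ∑ n ∈ S, G n = cmass G q w z h0 ∧ Ref (wS prm N' G) (push (redZ prm) S G) ∧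
    ∀ R : Finset ι, (R.card : ℝ) ≤ thB k * (Real.exp l / l) → ∀ x : ∀ i, ZMod (prm i),
      Real.exp (-(1 / 400 * Real.exp l / l)) ≤
        gdw (wS prm N' G) (push (redZ prm) S G) R x →
      lamS / l * ∑ j ∈ univ \ R,
          Di (wS prm N' G) (gdw (wS prm N' G) (push (redZ prm) S G)) j R x ≤
        (1 / l ^ 16) * R.card + 7 - Real.log (gdw (uw prm) (push (redZ prm) S G) R x) := by
  obtain ⟨a, rfl⟩ : ∃ a : ℕ, z = a := ⟨z.toNat, (Int.toNat_of_nonneg hz).symm⟩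
  have haV : a + h0 ≤ N' := by exact_mod_cast hzN
  have hq : 1 ≤ q := Nat.one_le_iff_ne_zero.2 (NeZero.ne q)
  have hN0 : (0 : ℝ) < N' := by exact_mod_cast h.law.pos
  have hh0 : (0 : ℝ) < h0 := by
    have : 0 < h0 := by
      have := h.law.pos
      omega
    exact_mod_cast this
  have hq0 : (0 : ℝ) < q := by exact_mod_cast hq
  rw [cellZ_eq] at hS
  have hcm := cmass_eq hG w haV
  have hsum : ∑ n ∈ S, G n = cmass G q w a h0 := by
    rw [hS, sum_cellZ' hG (by omega) haV, hcm]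
  have hsub : S ⊆ Icc (1 : ℤ) N' := by
    rw [hS]
    exact cellZ_sub (by omega) haV
  have hpos : 0 < cmass G q w a h0 := by
    have h1 : 0 < q * cmass G q w a h0 := lt_of_lt_of_le (by positivity) hmass
    exact (mul_pos_iff_of_pos_left hq0).1 h1
  have e : a + h0 + 1 - (a + 1) = h0 := by omega
  have h1 := bridge_Q (q := q) (c := w.val) (u := a + 1) (v := a + h0) B hk hκ hC2 hC h hG hinj
    hW hq hqc hqP (by omega) haV (by omega) (by
      rw [e]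
      rw [hcm] at hmass
      have h2 : (q : ℝ) * (N' * ms mu N' (cl q w.val (a + 1) (a + h0))) =
        q * ms mu N' (cl q w.val (a + 1) (a + h0)) * N' := by ring
      rw [h2] at hmass
      linarith)
  rw [← hS] at h1
  refine ⟨hsub, hsum ▸ hpos, fun n hn => G_nonneg hG h.law n (hsub hn), fun n hn => ?_, hsum,
    h1.1, h1.2⟩
  have h2 := mem_Icc.1 (hsub hn)
  rw [hG, if_pos h2.1]
  have h3 := h.cap n.toNat
  rw [Real.log_exp] at h3
  have h4 := mul_le_mul_of_nonneg_left h3 hN0.le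
  rwa [mul_div_cancel₀ _ hN0.ne'] at h4

end

end Vale.Agent.P042.H359
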