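import Vale.Agent.P042.H362.StF
import Vale.Agent.P042.H359.Choose

set_option autoImplicit false

/-!
Power version: no cell of the state, of a modulus without primes of the state, is much heavier than
the average.
-/

namespace Vale.Agent.P042.H359

open Finset Polynomial Vale.Agent.P042.H779 Vale.Agent.P042.H779.Ab Vale.Agent.P042.H599
  Vale.Agent.P042.H945 Vale.Agent.P042.H362 Vale.Agent.P042.H972 Vale.Agent.P042.H739
  Vale.Agent.P042.SS

set_option linter.unusedSectionVars false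

/-- no cell of the state is much heavier than the average; moduli with primes `≤ K0f` only -/
def CELLSF (K0f Q0f : ℕ → ℕ → ℝ → ℕ) (St : StTy) : Prop :=
  ∀ k R : ℕ, 2 ≤ k → 1 ≤ R → ∃ κs : ℝ, 0 < κs ∧ ∀ κ : ℝ, 0 < κ → κ ≤ κs →
  ∃ P0 : ℝ, ∀ P : ℝ, P0 ≤ P → ∀ (f : ℤ[X]) (N' : ℕ) (G : ℤ → ℝ), f.natDegree = k →
    0 < f.leadingCoeff → Base6 f κ P N' G → St k R f κ P N' G →
    ∀ q : ℕ, 1 ≤ q → q ≤ Q0f k R κ → (∀ p : ℕ, p.Prime → p ∣ q → p ≤ K0f k R κ) →
      ∀ (z : ℤ) (V : ℕ), 0 ≤ z → z + V ≤ N' → N' ≤ 1000 * V →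
      ∀ w : ZMod q, q * cmass G q w z V ≤ (1 + 1 / 8000) * V

/-- the mass of one cell from the field `ql` -/
theorem ql_cell {W : Finset ℕ} {q : FP} {M : ℕ} {mu : ℕ → ℝ} {Dm Lq : ℝ}
    (hlaw : Law mu 1 M) (hnn : ∀ n, 0 ≤ mu n) (hW : ∀ p ∈ W, p.Prime)
    (h : QL W q M mu Dm Lq) (hDm : 0 ≤ Dm) {D w u v : ℕ} (hD : 1 ≤ D) (hDL : Real.log D ≤ Lq)
    (hu : 1 ≤ u) (hv : v ≤ M) (hV : (M : ℝ) ≤ Real.exp Dm * ((v + 1 - u : ℕ) : ℝ))
    (hcost : 0 ≤ costF W q D M ((v + 1 - u : ℕ) : ℝ)) :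
    D * ms mu M (cl D w u v) * M ≤
      Real.exp (costF W q D M ((v + 1 - u : ℕ) : ℝ)) * ((v + 1 - u : ℕ) : ℝ) := by
  classical
  have hM : (0 : ℝ) < M := by exact_mod_cast hlaw.pos
  have hV0 : (0 : ℝ) < ((v + 1 - u : ℕ) : ℝ) := by
    by_contra hcon
    have h1 := mul_nonpos_of_nonneg_of_nonpos (Real.exp_pos Dm).le (not_lt.1 hcon)
    linarith
  have hD0 : (0 : ℝ) < D := by exact_mod_cast hD
  have hE : (1 : ℝ) ≤ Real.exp (costF W q D M ((v + 1 - u : ℕ) : ℝ)) := Real.one_le_exp hcost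
  rcases (ms_nonneg hlaw (cl D w u v)).eq_or_lt with h0 | h0
  · rw [← h0]
    simp only [mul_zero, zero_mul]
    positivity
  by_cases hth : Real.exp (-Dm) * ((v + 1 - u : ℕ) : ℝ) ≤ D * ms mu M (cl D w u v) * M
  · have hy : Law (rst mu M (cl D w u v)) 1 M := rst_law hlaw h0
    have hy0 : ∀ n, 0 ≤ rst mu M (cl D w u v) n := by
      intro n
      unfold rst
      split_ifs
      · exact div_nonneg (hnn n) h0.le
      · exact le_rfl
    have h1 := h D w u v (rst mu M (cl D w u v)) hD hDL hu hv hV h0 hth hy hy0 (fun n =>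
      le_mul_of_one_le_left (hy0 n) (Real.one_le_exp hDm))
    rw [kl2_self] at h1
    have h2 : 0 ≤ ∑ p ∈ W with Nat.Coprime p D, (p : ℝ) ^ (-q.g) *
        klc (rst mu M (cl D w u v)) mu M p :=
      sum_nonneg fun p hp => mul_nonneg (Real.rpow_nonneg (Nat.cast_nonneg _) _)
        (klc_nonneg hy hlaw (rst_ac _) (hW p (mem_filter.1 hp).1).pos)
    have h3 : 0 < D * ms mu M (cl D w u v) * M / ((v + 1 - u : ℕ) : ℝ) := by positivity
    have h4 : Real.log (D * ms mu M (cl D w u v) * M / ((v + 1 - u : ℕ) : ℝ)) ≤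
        costF W q D M ((v + 1 - u : ℕ) : ℝ) := by linarith
    rw [Real.log_le_iff_le_exp h3, div_le_iff₀ hV0] at h4
    exact h4
  · have h1 := (not_le.1 hth).le
    refine h1.trans (mul_le_mul_of_nonneg_right ?_ hV0.le)
    refine le_trans ?_ hE
    rw [Real.exp_le_one_iff]
    linarith

/-- **the masses of the cells of the state of the power regime** -/
theorem cells_StF {κ' : Type} (par : ℕ → ℕ → ℝ → FP)
    (fam : ℕ → ℕ → ℝ → ℝ → H599.Fam κ') (K0f Q0f : ℕ → ℕ → ℝ → ℕ)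
    (hpar : ∀ k R : ℕ, 2 ≤ k → 1 ≤ R → ∃ κs : ℝ, 0 < κs ∧ ∀ κ : ℝ, 0 < κ → κ ≤ κs →
      K0f k R κ ≤ max (max (par k R κ).K0 R) (2 * k) ∧ 0 < (par k R κ).kp ∧
        0 ≤ (par k R κ).be ∧
        (par k R κ).be * (Real.log (Q0f k R κ) + 8) ≤ 1 / 20000) :
    CELLSF K0f Q0f (StF par fam) := by
  intro k R hk hR
  obtain ⟨κs, hκs, hp⟩ := hpar k R hk hR
  refine ⟨κs, hκs, fun κ hκ hκs' => ?_⟩
  obtain ⟨hK, hkp, hbe, hbeQ⟩ := hp κ hκ hκs'
  obtain ⟨q, hq⟩ : ∃ q : FP, q = par k R κ := ⟨_, rfl⟩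
  rw [← hq] at hK hkp hbe hbeQ
  have hk0 : (0 : ℝ) < k := by
    have : 0 < k := by omega
    exact_mod_cast this
  refine ⟨max (64 * 7 / q.kp) (16 * k * Real.log (Q0f k R κ)),
    fun P hP f N' G hdeg hlead hbase hSt D hD1 hDQ hDp z V hz hzN hVN w => ?_⟩
  have : NeZero D := ⟨by omega⟩
  obtain ⟨mu, hF, hG⟩ := hSt
  have hF' : StF1 (WF q k R P) q (fam k R κ P) f N' mu (q.kp * P / 64) (P / (16 * k)) := by
    rw [hq]
    exact hF
  have hP1 := (le_max_left _ _).trans hP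
  have hP2 := (le_max_right _ _).trans hP
  rw [div_le_iff₀ hkp] at hP1
  have hDm : 7 ≤ q.kp * P / 64 := by linarith
  have hlaw := hF'.law
  have hN0 : (0 : ℝ) < N' := by exact_mod_cast hlaw.pos
  obtain ⟨a, rfl⟩ : ∃ a : ℕ, z = a := ⟨z.toNat, (Int.toNat_of_nonneg hz).symm⟩
  have haV : a + V ≤ N' := by exact_mod_cast hzN
  have hV0 : 0 < V := by
    have := hlaw.pos
    omega
  have hV0r : (0 : ℝ) < V := by exact_mod_cast hV0
  have e : a + V + 1 - (a + 1) = V := by omega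
  have hDr : (1 : ℝ) ≤ D := by exact_mod_cast hD1
  have hlD : 0 ≤ Real.log D := Real.log_nonneg hDr
  have hDQr : (D : ℝ) ≤ Q0f k R κ := by exact_mod_cast hDQ
  have hlDQ : Real.log D ≤ Real.log (Q0f k R κ) := Real.log_le_log (by linarith) hDQr
  have h1000 : (1000 : ℝ) ≤ Real.exp 7 := by
    have h1 : (2.7 : ℝ) ≤ Real.exp 1 := by linarith [Real.exp_one_gt_d9]
    have h2 : (2.7 : ℝ) ^ 7 ≤ Real.exp 1 ^ 7 := pow_le_pow_left₀ (by norm_num) h1 7
    have h3 : Real.exp 7 = Real.exp 1 ^ 7 := by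
      rw [← Real.exp_nat_mul]
      norm_num
    rw [h3]
    exact le_trans (by norm_num) h2
  have hNV : (N' : ℝ) ≤ 1000 * V := by exact_mod_cast hVN
  have hVN' : (V : ℝ) ≤ N' := by exact_mod_cast (by omega : V ≤ N')
  -- the cost
  have hWD : (WF q k R P).filter (fun p => p ∣ D) = ∅ := by
    rw [filter_eq_empty_iff]
    intro p hp hpD
    unfold WF at hp
    rw [mem_filter] at hp
    have h1 := hDp p hp.2.1 hpD
    have h2 := hp.2.2
    exact absurd (h1.trans hK) (not_le.2 h2)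
  have hlogNV : Real.log N' - Real.log V ≤ 7 := by
    have h1 : Real.log N' ≤ Real.log (1000 * V) := Real.log_le_log hN0 hNV
    rw [Real.log_mul (by norm_num) hV0r.ne'] at h1
    have h2 : Real.log 1000 ≤ 7 := by
      rw [Real.log_le_iff_le_exp (by norm_num)]
      exact h1000
    linarith
  have hlogNV0 : 0 ≤ Real.log N' - Real.log V := by
    have := Real.log_le_log hV0r hVN'
    linarith
  have hcost : costF (WF q k R P) q D N' V ≤ 1 / 20000 := by
    unfold costF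
    rw [hWD, sum_empty, add_zero]
    refine le_trans (mul_le_mul_of_nonneg_left ?_ hbe) hbeQ
    linarith
  have hcost0 : 0 ≤ costF (WF q k R P) q D N' V := by
    unfold costF
    rw [hWD, sum_empty, add_zero]
    exact mul_nonneg hbe (by linarith)
  have h1 := ql_cell (w := w.val) (u := a + 1) (v := a + V) hlaw hF'.nn (fun p hp => by
      unfold WF at hp
      exact (mem_filter.1 hp).2.1) hF'.ql (by linarith) hD1 (by
      rw [le_div_iff₀ (by positivity)]
      calc Real.log D * (16 * k) = 16 * k * Real.log D := by ring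
        _ ≤ 16 * k * Real.log (Q0f k R κ) :=
            mul_le_mul_of_nonneg_left hlDQ (by positivity)
        _ ≤ P := hP2) (by omega) haV (by
      rw [e]
      refine hNV.trans (mul_le_mul_of_nonneg_right ?_ hV0r.le)
      exact h1000.trans (Real.exp_le_exp.2 hDm)) (by rw [e]; exact hcost0)
  rw [e] at h1
  rw [cmass_eq hG w haV]
  have h2 : Real.exp (costF (WF q k R P) q D N' V) ≤ 1 + 1 / 8000 :=
    exp_small hcost0 (by linarith) (by norm_num)
  calc (D : ℝ) * (N' * ms mu N' (cl D w.val (a + 1) (a + V)))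
      = D * ms mu N' (cl D w.val (a + 1) (a + V)) * N' := by ring
    _ ≤ Real.exp (costF (WF q k R P) q D N' V) * V := h1
    _ ≤ (1 + 1 / 8000) * V := mul_le_mul_of_nonneg_right h2 hV0r.le

end Vale.Agent.P042.H359
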