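import Mathlib

set_option autoImplicit false

/-!
Choice of a class modulo `q` and of two windows: if no cell of a weight is much heavier than the
average, then for every shift there is a class such that both cells are heavy.
-/

namespace Vale.Agent.P042.H359

open Finset

section cells

variable {q : ℕ} {g : ℤ → ℝ} {N' h0 : ℕ} {ε : ℝ}

/-- mass of the class `w` modulo `q` in the interval `(z, z + V]` -/
noncomputable def cmass (g : ℤ → ℝ) (q : ℕ) (w : ZMod q) (z : ℤ) (V : ℕ) : ℝ :=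
  ∑ n ∈ (Ioc z (z + V)).filter (fun n : ℤ => (n : ZMod q) = w), g n

theorem cmass_nonneg (hg : ∀ n, 0 ≤ g n) (w : ZMod q) (z : ℤ) (V : ℕ) :
    0 ≤ cmass g q w z V := Finset.sum_nonneg fun n _ => hg n

theorem sum_cmass [NeZero q] (z : ℤ) (V : ℕ) :
    ∑ w : ZMod q, cmass g q w z V = ∑ n ∈ Ioc z (z + V), g n := by
  unfold cmass
  exact Finset.sum_fiberwise (Ioc z (z + V)) (fun n : ℤ => (n : ZMod q)) g

/-- the mass of an interval from the masses of the cells -/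
theorem mass_le [NeZero q] (hcell : ∀ (z : ℤ) (V : ℕ), 0 ≤ z → z + V ≤ N' → h0 ≤ V →
      ∀ w : ZMod q, q * cmass g q w z V ≤ (1 + ε) * V) (z : ℤ) (V : ℕ) (hz : 0 ≤ z)
    (hzN : z + V ≤ N') (hV : h0 ≤ V ∨ V = 0) :
    ∑ n ∈ Ioc z (z + V), g n ≤ (1 + ε) * V := by
  rcases hV with hV | hV
  · have hq : (0 : ℝ) < q := by exact_mod_cast Nat.pos_of_ne_zero (NeZero.ne q)
    have h1 := Finset.sum_le_sum fun (w : ZMod q) (_ : w ∈ univ) => hcell z V hz hzN hV w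
    rw [← Finset.mul_sum, sum_cmass, Finset.sum_const, Finset.card_univ, ZMod.card,
      nsmul_eq_mul] at h1
    exact le_of_mul_le_mul_left h1 hq
  · subst hV
    simp

/-- every window is heavy -/
theorem mass_ge [NeZero q] (hsum : ∑ n ∈ Icc (1 : ℤ) N', g n = N')
    (hcell : ∀ (z : ℤ) (V : ℕ), 0 ≤ z → z + V ≤ N' → h0 ≤ V →
      ∀ w : ZMod q, q * cmass g q w z V ≤ (1 + ε) * V) (z : ℤ) (hz : 0 ≤ z)
    (hzN : z + h0 ≤ N') (h1 : z = 0 ∨ h0 ≤ z) (h2 : z + h0 = N' ∨ z + h0 + h0 ≤ N')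
    (hε : 0 ≤ ε) :
    (h0 : ℝ) - ε * N' ≤ ∑ n ∈ Ioc z (z + h0), g n := by
  obtain ⟨a, rfl⟩ : ∃ a : ℕ, z = a := ⟨z.toNat, (Int.toNat_of_nonneg hz).symm⟩
  obtain ⟨b, hb⟩ : ∃ b : ℕ, a + h0 + b = N' := ⟨N' - (a + h0), by omega⟩
  have e1 : ∑ n ∈ Icc (1 : ℤ) N', g n = ∑ n ∈ Ioc (0 : ℤ) (0 + (a : ℕ)), g n +
      ∑ n ∈ Ioc (a : ℤ) (a + (h0 : ℕ)), g n +
      ∑ n ∈ Ioc ((a : ℤ) + h0) ((a : ℤ) + h0 + (b : ℕ)), g n := by
    rw [zero_add]
    have h3 : Icc (1 : ℤ) N' = Ioc (0 : ℤ) ((a : ℤ) + h0 + (b : ℕ)) := by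
      ext n
      rw [mem_Icc, mem_Ioc]
      omega
    rw [h3]
    have h4 : Ioc (0 : ℤ) ((a : ℤ) + h0 + (b : ℕ)) =
        (Ioc (0 : ℤ) (a : ℕ) ∪ Ioc (a : ℤ) (a + (h0 : ℕ))) ∪
          Ioc ((a : ℤ) + h0) ((a : ℤ) + h0 + (b : ℕ)) := by
      ext n
      simp only [mem_union, mem_Ioc]
      omega
    rw [h4, Finset.sum_union, Finset.sum_union]
    · rw [Finset.disjoint_left]
      intro n
      simp only [mem_Ioc]
      omega
    · rw [Finset.disjoint_left]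
      intro n
      simp only [mem_union, mem_Ioc]
      omega
  have h3 := mass_le hcell 0 a le_rfl (by omega) (by omega)
  have h4 := mass_le hcell ((a : ℤ) + h0) b (by omega) (by omega) (by omega)
  rw [hsum] at e1
  have h5 : (a : ℝ) + h0 + b = N' := by exact_mod_cast hb
  have h6 : (0 : ℝ) ≤ h0 := Nat.cast_nonneg _
  have h7 : 0 ≤ ε * h0 := mul_nonneg hε h6
  nlinarith

/-- **choice of the class**: for every shift `s` and all two windows there is a class `w` such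
that the cell of `w` in the first window and the cell of `w - s` in the second window have at
least half of the average mass. -/
theorem two_cells [NeZero q] (hsum : ∑ n ∈ Icc (1 : ℤ) N', g n = N')
    (hcell : ∀ (z : ℤ) (V : ℕ), 0 ≤ z → z + V ≤ N' → h0 ≤ V →
      ∀ w : ZMod q, q * cmass g q w z V ≤ (1 + ε) * V) (hε : 0 ≤ ε) (hε1 : 8000 * ε ≤ 1)
    (hN : N' ≤ 1000 * h0)
    (z1 z2 : ℤ) (hz1 : 0 ≤ z1) (hz1N : z1 + h0 ≤ N') (h11 : z1 = 0 ∨ h0 ≤ z1)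
    (h12 : z1 + h0 = N' ∨ z1 + h0 + h0 ≤ N') (hz2 : 0 ≤ z2) (hz2N : z2 + h0 ≤ N')
    (h21 : z2 = 0 ∨ h0 ≤ z2) (h22 : z2 + h0 = N' ∨ z2 + h0 + h0 ≤ N') (s : ℤ) :
    ∃ w : ZMod q, (h0 : ℝ) / 2 ≤ q * cmass g q w z1 h0 ∧
      (h0 : ℝ) / 2 ≤ q * cmass g q (w - (s : ZMod q)) z2 h0 := by
  have hq : (0 : ℝ) < q := by exact_mod_cast Nat.pos_of_ne_zero (NeZero.ne q)
  have hm1 := mass_ge hsum hcell z1 hz1 hz1N h11 h12 hε
  have hm2 := mass_ge hsum hcell z2 hz2 hz2N h21 h22 hε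
  have hNr : (N' : ℝ) ≤ 1000 * h0 := by exact_mod_cast hN
  have h6 : (0 : ℝ) ≤ h0 := Nat.cast_nonneg _
  have hεN : ε * N' ≤ (h0 : ℝ) / 8 := by
    calc ε * N' ≤ ε * (1000 * h0) := mul_le_mul_of_nonneg_left hNr hε
      _ = (8000 * ε) * (h0 / 8) := by ring
      _ ≤ 1 * (h0 / 8) := mul_le_mul_of_nonneg_right hε1 (by positivity)
      _ = (h0 : ℝ) / 8 := one_mul _
  -- the average
  have e1 : ∑ w : ZMod q, (q * cmass g q w z1 h0 + q * cmass g q (w - (s : ZMod q)) z2 h0) =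
      q * (∑ n ∈ Ioc z1 (z1 + h0), g n + ∑ n ∈ Ioc z2 (z2 + h0), g n) := by
    rw [Finset.sum_add_distrib, ← Finset.mul_sum, ← Finset.mul_sum, sum_cmass, mul_add]
    congr 2
    rw [← sum_cmass (q := q)]
    exact Fintype.sum_equiv (Equiv.subRight (s : ZMod q)) _ _ fun w => rfl
  have e2 : ∑ w : ZMod q, ((7 : ℝ) / 4 * h0) ≤
      ∑ w : ZMod q, (q * cmass g q w z1 h0 + q * cmass g q (w - (s : ZMod q)) z2 h0) := by
    rw [e1, Finset.sum_const, Finset.card_univ, ZMod.card, nsmul_eq_mul]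
    refine mul_le_mul_of_nonneg_left ?_ hq.le
    linarith
  obtain ⟨w, -, hw⟩ := Finset.exists_le_of_sum_le (Finset.univ_nonempty) e2
  have h3 := hcell z1 h0 hz1 hz1N le_rfl w
  have h4 := hcell z2 h0 hz2 hz2N le_rfl (w - (s : ZMod q))
  have h7 : 8000 * (ε * h0) ≤ h0 := by
    calc 8000 * (ε * h0) = (8000 * ε) * h0 := by ring
      _ ≤ 1 * h0 := mul_le_mul_of_nonneg_right hε1 h6
      _ = (h0 : ℝ) := one_mul _
  refine ⟨w, ?_, ?_⟩ <;> linarith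

end cells

end Vale.Agent.P042.H359
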