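import Vale.Agent.P042.H482.Pe

set_option autoImplicit false

/-!
Push-forward of a weight on a finite set (a cell of the integers) to a finite product space, and
the exponential moment form of the pinned inequality for it, from one inequality on the cells.
-/

namespace Vale.Agent.P042.H359

open Finset Vale.Agent.P042.H779 Vale.Agent.P042.H779.Ab Vale.Agent.P042.H482

set_option linter.unusedSectionVars false

section
variable {Ω : Type*} {ι : Type*} [Fintype ι] [DecidableEq ι] {V : ι → Type*}
  [∀ i, Fintype (V i)] [∀ i, DecidableEq (V i)] {red : Ω → ∀ i, V i} {S : Finset Ω} {g : Ω → ℝ}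

/-- mass of the points of `S` with prescribed coordinates in `P` -/
noncomputable def cel (red : Ω → ∀ i, V i) (S : Finset Ω) (g : Ω → ℝ) (P : Finset ι)
    (x : ∀ i, V i) : ℝ := ∑ n ∈ S, if (∀ i ∈ P, red n i = x i) then g n else 0

/-- the push-forward of the normalised weight -/
noncomputable def push (red : Ω → ∀ i, V i) (S : Finset Ω) (g : Ω → ℝ) (x : ∀ i, V i) : ℝ :=
  (∑ n ∈ S, if red n = x then g n else 0) / ∑ n ∈ S, g n

theorem cel_nonneg (hg : ∀ n ∈ S, 0 ≤ g n) (P : Finset ι) (x : ∀ i, V i) :
    0 ≤ cel red S g P x := by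
  unfold cel
  refine sum_nonneg fun n hn => ?_
  split_ifs
  · exact hg n hn
  · exact le_rfl

theorem cel_empty (x : ∀ i, V i) : cel red S g ∅ x = ∑ n ∈ S, g n := by
  simp [cel]

theorem cel_le (hg : ∀ n ∈ S, 0 ≤ g n) (P : Finset ι) (x : ∀ i, V i) :
    cel red S g P x ≤ ∑ n ∈ S, g n := by
  unfold cel
  refine sum_le_sum fun n hn => ?_
  split_ifs
  · exact le_rfl
  · exact hg n hn

/-- sums against the push-forward -/
theorem sum_push (F : (∀ i, V i) → ℝ) :
    ∑ x, push red S g x * F x = (∑ n ∈ S, g n * F (red n)) / ∑ n ∈ S, g n := by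
  unfold push
  have e1 : ∀ x, (∑ n ∈ S, if red n = x then g n else 0) / (∑ n ∈ S, g n) * F x =
      (∑ n ∈ S, if red n = x then g n * F (red n) else 0) / ∑ n ∈ S, g n := by
    intro x
    rw [div_mul_eq_mul_div, Finset.sum_mul]
    congr 1
    refine sum_congr rfl fun n _ => ?_
    split_ifs with h
    · rw [h]
    · rw [zero_mul]
  rw [sum_congr rfl fun x _ => e1 x, ← sum_div, sum_comm]
  congr 1
  refine sum_congr rfl fun n _ => ?_
  rw [sum_ite_eq, if_pos (mem_univ _)]

theorem marg_push (P : Finset ι) (x : ∀ i, V i) :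
    marg (push red S g) P x = cel red S g P x / ∑ n ∈ S, g n := by
  have h1 := sum_push (red := red) (S := S) (g := g)
    (fun y => if (∀ i ∈ P, y i = x i) then (1 : ℝ) else 0)
  unfold marg cel
  have e1 : ∀ y, (if (∀ i ∈ P, y i = x i) then push red S g y else 0) =
      push red S g y * (if (∀ i ∈ P, y i = x i) then (1 : ℝ) else 0) := by
    intro y
    split_ifs <;> simp
  rw [sum_congr rfl fun y _ => e1 y, h1]
  congr 1
  refine sum_congr rfl fun n _ => ?_
  split_ifs <;> simp

theorem m1_push (i : ι) (a : V i) :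
    m1 (push red S g) i a = (∑ n ∈ S, if red n i = a then g n else 0) / ∑ n ∈ S, g n := by
  have h1 := sum_push (red := red) (S := S) (g := g)
    (fun y => if y i = a then (1 : ℝ) else 0)
  unfold m1
  have e1 : ∀ y : ∀ i, V i, (if y i = a then push red S g y else 0) =
      push red S g y * (if y i = a then (1 : ℝ) else 0) := by
    intro y
    split_ifs <;> simp
  rw [sum_congr rfl fun y _ => e1 y, h1]
  congr 1
  refine sum_congr rfl fun n _ => ?_
  split_ifs <;> simp

theorem push_prob (hg : ∀ n ∈ S, 0 ≤ g n) (hS : 0 < ∑ n ∈ S, g n) :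
    IsProb (push red S g) where
  nonneg x := by
    unfold push
    refine div_nonneg (sum_nonneg fun n hn => ?_) hS.le
    split_ifs
    · exact hg n hn
    · exact le_rfl
  sum_eq := by
    have h1 := sum_push (red := red) (S := S) (g := g) (fun _ => 1)
    simp only [mul_one] at h1
    rw [h1, div_self hS.ne']

/-- the marginals of the whole weight are reference weights for the push-forward of every
part -/
theorem push_ref {T : Finset Ω} (hST : S ⊆ T) (hg : ∀ n ∈ T, 0 ≤ g n) (hS : 0 < ∑ n ∈ S, g n) :
    Ref (m1 (push red T g)) (push red S g) := by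
  have hgS : ∀ n ∈ S, 0 ≤ g n := fun n hn => hg n (hST hn)
  have hT : 0 < ∑ n ∈ T, g n := lt_of_lt_of_le hS
    (sum_le_sum_of_subset_of_nonneg hST fun n hn _ => hg n hn)
  refine ⟨push_prob hgS hS, m1_nonneg (push_prob hg hT), m1_sum (push_prob hg hT), ?_⟩
  intro i a h0
  rw [m1_push, div_eq_zero_iff] at h0
  have h1 : ∑ n ∈ T, (if red n i = a then g n else 0) = 0 := by
    rcases h0 with h0 | h0
    · exact h0
    · exact absurd h0 hT.ne'
  have h2 := (sum_eq_zero_iff_of_nonneg (fun n hn => by
    split_ifs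
    · exact hg n hn
    · exact le_rfl)).1 h1
  rw [m1_push, sum_eq_zero fun n hn => h2 n (hST hn), zero_div]

/-- product law sums against the two push-forwards -/
theorem pr_push {S' : Finset Ω} (K : ∀ i, V i → V i → ℝ) (B : Finset ι) :
    ∑ x, ∑ y, push red S g x * push red S' g y * ∏ i ∈ B, K i (x i) (y i) =
      (∑ n ∈ S, ∑ m ∈ S', g n * g m * ∏ i ∈ B, K i (red n i) (red m i)) /
        ((∑ n ∈ S, g n) * ∑ n ∈ S', g n) := by
  have e1 : ∀ x, ∑ y, push red S g x * push red S' g y * ∏ i ∈ B, K i (x i) (y i) =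
      push red S g x * ((∑ m ∈ S', g m * ∏ i ∈ B, K i (x i) (red m i)) / ∑ n ∈ S', g n) := by
    intro x
    rw [← sum_push (red := red) (S := S') (g := g) fun y => ∏ i ∈ B, K i (x i) (y i), mul_sum]
    exact sum_congr rfl fun y _ => by ring
  rw [sum_congr rfl fun x _ => e1 x, sum_push, mul_comm (∑ n ∈ S, g n), ← div_div]
  congr 1
  rw [sum_div]
  refine sum_congr rfl fun n _ => ?_
  rw [mul_div_assoc', mul_sum]
  congr 1
  exact sum_congr rfl fun m _ => by ring

/-! ### the pinned inequality -/

/-- the mass of the point `b` of the coordinate `j` in a cell -/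
theorem cel_insert (P : Finset ι) {j : ι} (hj : j ∉ P) (x : ∀ i, V i) (b : V j) :
    cel red S g (insert j P) (Function.update x j b) =
      ∑ n ∈ S, if (∀ i ∈ P, red n i = x i) ∧ red n j = b then g n else 0 := by
  unfold cel
  refine sum_congr rfl fun n _ => ?_
  have key : (∀ i ∈ insert j P, red n i = Function.update x j b i) ↔
      ((∀ i ∈ P, red n i = x i) ∧ red n j = b) := by
    constructor
    · intro h
      refine ⟨fun i hi => ?_, by simpa using h j (mem_insert_self j P)⟩
      have hij : i ≠ j := fun h => hj (h ▸ hi)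
      have := h i (mem_insert_of_mem hi)
      simpa [hij] using this
    · rintro ⟨h2, h1⟩ i hi
      rcases mem_insert.mp hi with rfl | hi
      · simpa using h1
      · have hij : i ≠ j := fun h => hj (h ▸ hi)
        simpa [hij] using h2 i hi
  by_cases h : (∀ i ∈ P, red n i = x i) ∧ red n j = b
  · rw [if_pos h, if_pos (key.2 h)]
  · rw [if_neg h, if_neg fun hc => h (key.1 hc)]

/-- relative entropy of the coordinate `j` of the cell with respect to `w j` -/
noncomputable def ck (red : Ω → ∀ i, V i) (S : Finset Ω) (g : Ω → ℝ) (w : ∀ i, V i → ℝ)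
    (P : Finset ι) (x : ∀ i, V i) (j : ι) : ℝ :=
  ∑ b, cel red S g (insert j P) (Function.update x j b) / cel red S g P x *
    Real.log (cel red S g (insert j P) (Function.update x j b) / cel red S g P x / w j b)

theorem Di_push {w : ∀ i, V i → ℝ} (H : Ref w (push red S g)) (hS : 0 < ∑ n ∈ S, g n)
    {P : Finset ι} {j : ι} (hj : j ∉ P) {x : ∀ i, V i} (hx : 0 < cel red S g P x) :
    Di w (gdw w (push red S g)) j P x = ck red S g w P x j := by
  have hm : 0 < marg (push red S g) P x := by
    rw [marg_push]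
    exact div_pos hx hS
  rw [Di_eq H hj hm]
  have e1 : ∀ b, mi (push red S g) P (fun _ => 1) j x b =
      cel red S g (insert j P) (Function.update x j b) / cel red S g P x := by
    intro b
    rw [mi_one hj, marg_push, marg_push, div_div_div_cancel_right₀ hS.ne']
  have hsum : ∑ b, cel red S g (insert j P) (Function.update x j b) / cel red S g P x = 1 := by
    have h1 := marg_insert_sum (μ := push red S g) P hj x
    simp only [marg_push] at h1
    rw [← sum_div] at h1
    rw [← sum_div, div_eq_one_iff_eq hx.ne']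
    exact (div_left_inj' hS.ne').1 h1
  have hac : ∀ b, w j b = 0 →
      cel red S g (insert j P) (Function.update x j b) / cel red S g P x = 0 := by
    intro b hb
    have h1 := marg_eq_zero_of_w H.prob H.ac (R := insert j P) (mem_insert_self j P)
      (x := Function.update x j b) (by simpa using hb)
    rw [marg_push, div_eq_zero_iff] at h1
    rcases h1 with h1 | h1
    · rw [h1, zero_div]
    · exact absurd h1 hS.ne'
  unfold ck
  have e2 : ∀ b, w j b * phi (mi (push red S g) P (fun _ => 1) j x b / w j b) =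
      cel red S g (insert j P) (Function.update x j b) / cel red S g P x *
        Real.log (cel red S g (insert j P) (Function.update x j b) / cel red S g P x / w j b) -
      cel red S g (insert j P) (Function.update x j b) / cel red S g P x + w j b := by
    intro b
    rw [e1 b]
    by_cases hb : w j b = 0
    · rw [hb, hac b hb]
      simp
    · unfold phi
      field_simp
  rw [sum_congr rfl fun b _ => e2 b, sum_add_distrib, sum_sub_distrib, hsum, H.w_sum]
  ring

/-- **the exponential moments of the divergences given the pins, from an inequality on the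
cells** (pins `P`, divergences of the coordinates in `J`) -/
theorem pe_of_cells {w w2 : ∀ i, V i → ℝ} (H : Ref w (push red S g)) (hg : ∀ n ∈ S, 0 ≤ g n)
    (hS : 0 < ∑ n ∈ S, g n)
    (h0 : ∀ i a, 0 < w2 i a) (h1 : ∀ i, ∑ a, w2 i a = 1) {P J : Finset ι} {lam a : ℝ} {c : ι → ℝ}
    (hP : ∀ x, 0 < cel red S g P x → lam * ∑ j ∈ J \ P, ck red S g w P x j +
      Real.log (cel red S g P x / (∑ n ∈ S, g n) / ∏ i ∈ P, w2 i (x i)) ≤ ∑ i ∈ P, c i + a) :
    ∑ x, push red S g x * Real.exp (lam * ∑ j ∈ J \ P, Di w (gdw w (push red S g)) j P x) ≤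
      Real.exp (∑ i ∈ P, c i + a) := by
  have key : ∀ x, push red S g x *
        Real.exp (lam * ∑ j ∈ J \ P, Di w (gdw w (push red S g)) j P x)
      ≤ Real.exp (∑ i ∈ P, c i + a) *
        (push red S g x * ((∏ i ∈ P, w2 i (x i)) / marg (push red S g) P x)) := by
    intro x
    rcases (H.prob.nonneg x).eq_or_lt with hx | hx
    · rw [← hx]; simp
    · have hm : 0 < marg (push red S g) P x := lt_of_lt_of_le hx (marg_ge H.prob P x)
      have hc : 0 < cel red S g P x := by
        rw [marg_push] at hm
        by_contra hcon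
        have h2 : cel red S g P x = 0 := le_antisymm (not_lt.1 hcon) (cel_nonneg hg P x)
        rw [h2, zero_div] at hm
        exact lt_irrefl _ hm
      have h2 := hP x hc
      have e1 : ∑ j ∈ J \ P, Di w (gdw w (push red S g)) j P x =
          ∑ j ∈ J \ P, ck red S g w P x j :=
        sum_congr rfl fun j hj => Di_push H hS (mem_sdiff.1 hj).2 hc
      have hw : 0 < ∏ i ∈ P, w2 i (x i) := prod_pos fun i _ => h0 i _
      rw [← marg_push] at h2
      have h3 : Real.exp (∑ i ∈ P, c i + a - Real.log (marg (push red S g) P x /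
          ∏ i ∈ P, w2 i (x i))) = Real.exp (∑ i ∈ P, c i + a) *
            ((∏ i ∈ P, w2 i (x i)) / marg (push red S g) P x) := by
        rw [Real.exp_sub, Real.exp_log (div_pos hm hw), div_div_eq_mul_div, mul_div_assoc]
      calc push red S g x * Real.exp (lam * ∑ j ∈ J \ P, Di w (gdw w (push red S g)) j P x)
          ≤ push red S g x * Real.exp (∑ i ∈ P, c i + a -
              Real.log (marg (push red S g) P x / ∏ i ∈ P, w2 i (x i))) := by
            refine mul_le_mul_of_nonneg_left (Real.exp_le_exp.2 ?_) hx.le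
            rw [e1]
            linarith
        _ = _ := by rw [h3]; ring
  refine (sum_le_sum fun x _ => key x).trans ?_
  rw [← mul_sum]
  calc Real.exp (∑ i ∈ P, c i + a) *
        ∑ x, push red S g x * ((∏ i ∈ P, w2 i (x i)) / marg (push red S g) P x)
      ≤ Real.exp (∑ i ∈ P, c i + a) * 1 :=
        mul_le_mul_of_nonneg_left (sum_inv_le H.prob (fun i a => (h0 i a).le) h1 P)
          (Real.exp_pos _).le
    _ = _ := mul_one _

/-- the density of a cell -/
theorem hlog_of_cells {w w2 : ∀ i, V i → ℝ} (H : Ref w (push red S g))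
    (hg : ∀ n ∈ S, 0 ≤ g n) (h0 : ∀ i a, 0 < w2 i a)
    {M : Finset ι} {a A : ℝ} {c : ι → ℝ} (hA : ∀ i b, w i b ≠ 0 → w2 i b ≤ Real.exp A * w i b)
    (hP : ∀ x, 0 < cel red S g M x →
      Real.log (cel red S g M x / (∑ n ∈ S, g n) / ∏ i ∈ M, w2 i (x i)) ≤ ∑ i ∈ M, c i + a)
    (x : ∀ i, V i) (hx : 0 < gdw w (push red S g) M x) :
    Real.log (gdw w (push red S g) M x) ≤ ∑ i ∈ M, (c i + A) + a := by
  rw [gdw_pos_iff H.prob H.w_nonneg H.ac] at hx
  have hw := prod_w_pos_of_marg H.prob H.w_nonneg H.ac hx
  have hw2 : 0 < ∏ i ∈ M, w2 i (x i) := prod_pos fun i _ => h0 i _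
  have hc : 0 < cel red S g M x := by
    rw [marg_push] at hx
    by_contra hcon
    have h2 : cel red S g M x = 0 := le_antisymm (not_lt.1 hcon) (cel_nonneg hg M x)
    rw [h2, zero_div] at hx
    exact lt_irrefl _ hx
  have h2 := hP x hc
  rw [← marg_push] at h2
  have h3 : ∏ i ∈ M, w2 i (x i) ≤ ∏ i ∈ M, (Real.exp A * w i (x i)) := by
    refine prod_le_prod (fun i _ => (h0 i _).le) fun i hi => hA i _ ?_
    intro h4
    exact hw.ne' (prod_eq_zero hi h4)
  rw [prod_mul_distrib, prod_const] at h3
  unfold gdw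
  rw [Real.log_div hx.ne' hw.ne']
  rw [Real.log_div hx.ne' hw2.ne'] at h2
  have h4 := Real.log_le_log hw2 h3
  rw [Real.log_mul (pow_pos (Real.exp_pos _) _).ne' hw.ne', Real.log_pow, Real.log_exp] at h4
  rw [sum_add_distrib, sum_const, nsmul_eq_mul]
  linarith

end

end Vale.Agent.P042.H359
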