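import Vale.Agent.P042.H945.StS
import Vale.Agent.P042.H954.PrimeK
import Vale.Agent.P042.H359.Push
import Vale.Agent.P042.H359.Cells

set_option autoImplicit false

/-!
Target S: from the cell inequality of the state (integers) to the pinned inequality on the product
space.
-/

namespace Vale.Agent.P042.H359

open Finset Vale.Agent.P042.H779 Vale.Agent.P042.H779.Ab Vale.Agent.P042.H599
  Vale.Agent.P042.H945

set_option linter.unusedSectionVars false

/-- sum over the integers `1, ..., N` -/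
theorem sum_Icc_int (N : ℕ) (F : ℤ → ℝ) :
    ∑ n ∈ Icc (1 : ℤ) N, F n = ∑ i ∈ range N, F ((1 + i : ℕ) : ℤ) := by
  symm
  refine Finset.sum_bij (fun i _ => ((1 + i : ℕ) : ℤ)) ?_ ?_ ?_ ?_
  · intro i hi
    rw [mem_range] at hi
    rw [mem_Icc]
    omega
  · intro a _ b _ h
    have h' : ((1 + a : ℕ) : ℤ) = ((1 + b : ℕ) : ℤ) := h
    omega
  · intro n hn
    rw [mem_Icc] at hn
    refine ⟨(n - 1).toNat, ?_, ?_⟩
    · rw [mem_range]; omega
    · show ((1 + (n - 1).toNat : ℕ) : ℤ) = n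
      omega
  · intro i _
    rfl

/-- the integers of `[u, v]` in the class `c` modulo `q` -/
noncomputable def cellZ (q c u v : ℕ) : Finset ℤ := (Icc (u : ℤ) v).filter fun n => n % (q : ℤ) = (c : ℤ)

section
variable {ι : Type*} [Fintype ι] [DecidableEq ι] {prm : ι → ℕ}

/-- the residues of an integer -/
def redZ (prm : ι → ℕ) (n : ℤ) (i : ι) : ZMod (prm i) := (n : ZMod (prm i))

end

section
variable {N' : ℕ} {mu : ℕ → ℝ} {G : ℤ → ℝ}

theorem sum_cellZ (hG : ∀ n : ℤ, G n = if 1 ≤ n then (N' : ℝ) * mu n.toNat else 0)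
    {q c u v : ℕ} (hu : 1 ≤ u) (hv : v ≤ N') (Cd : ℤ → Prop) [DecidablePred Cd] :
    ∑ n ∈ cellZ q c u v, (if Cd n then G n else 0) =
      N' * ms mu N' (fun n => cl q c u v n ∧ Cd n) := by
  classical
  have h1 : ∑ n ∈ cellZ q c u v, (if Cd n then G n else 0) =
      ∑ n ∈ Icc (1 : ℤ) N', if ((u : ℤ) ≤ n ∧ n ≤ v ∧ n % (q : ℤ) = (c : ℤ)) ∧ Cd n then G n
        else 0 := by
    rw [← sum_filter, ← sum_filter]
    refine sum_congr ?_ fun _ _ => rfl
    ext n
    simp only [cellZ, mem_filter, mem_Icc]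
    constructor
    · rintro ⟨⟨⟨h1, h2⟩, h3⟩, h4⟩
      exact ⟨⟨by omega, by omega⟩, ⟨h1, h2, h3⟩, h4⟩
    · rintro ⟨-, ⟨h1, h2, h3⟩, h4⟩
      exact ⟨⟨⟨h1, h2⟩, h3⟩, h4⟩
  rw [h1, sum_Icc_int]
  unfold ms SM
  rw [mul_sum]
  refine sum_congr rfl fun i _ => ?_
  have h2 : G ((1 + i : ℕ) : ℤ) = N' * mu (1 + i) := by
    rw [hG, if_pos (by omega), Int.toNat_natCast]
  have h3 : (((u : ℤ) ≤ ((1 + i : ℕ) : ℤ) ∧ ((1 + i : ℕ) : ℤ) ≤ v ∧
      ((1 + i : ℕ) : ℤ) % (q : ℤ) = (c : ℤ)) ↔ cl q c u v (1 + i)) := by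
    unfold cl
    constructor
    · rintro ⟨a1, a2, a3⟩
      exact ⟨by exact_mod_cast a1, by exact_mod_cast a2, by exact_mod_cast a3⟩
    · rintro ⟨a1, a2, a3⟩
      exact ⟨by exact_mod_cast a1, by exact_mod_cast a2, by exact_mod_cast a3⟩
  beta_reduce
  by_cases h4 : cl q c u v (1 + i) ∧ Cd ((1 + i : ℕ) : ℤ)
  · rw [if_pos ⟨h3.2 h4.1, h4.2⟩, if_pos h4, h2]
  · rw [if_neg fun h => h4 ⟨h3.1 h.1, h.2⟩, if_neg h4, mul_zero]

theorem sum_cellZ' (hG : ∀ n : ℤ, G n = if 1 ≤ n then (N' : ℝ) * mu n.toNat else 0)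
    {q c u v : ℕ} (hu : 1 ≤ u) (hv : v ≤ N') :
    ∑ n ∈ cellZ q c u v, G n = N' * ms mu N' (cl q c u v) := by
  have h1 := sum_cellZ hG (q := q) (c := c) hu hv (fun _ => True)
  simpa using h1

/-- the masses of the classes of the whole state -/
theorem sum_class (hG : ∀ n : ℤ, G n = if 1 ≤ n then (N' : ℝ) * mu n.toNat else 0)
    {p : ℕ} (a : ℕ) :
    ∑ n ∈ Icc (1 : ℤ) N', (if n % (p : ℤ) = (a : ℤ) then G n else 0) =
      N' * cm mu 1 N' p a := by
  rw [sum_Icc_int]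
  unfold cm
  rw [mul_sum]
  refine sum_congr rfl fun i _ => ?_
  have h2 : G ((1 + i : ℕ) : ℤ) = N' * mu (1 + i) := by
    rw [hG, if_pos (by omega), Int.toNat_natCast]
  have h3 : (((1 + i : ℕ) : ℤ) % (p : ℤ) = (a : ℤ)) ↔ ((1 + i) % p = a) := by
    constructor <;> intro h <;> exact_mod_cast h
  by_cases h4 : (1 + i) % p = a
  · rw [if_pos (h3.2 h4), if_pos h4, h2]
  · rw [if_neg fun h => h4 (h3.1 h), if_neg h4, mul_zero]

theorem sum_all (hG : ∀ n : ℤ, G n = if 1 ≤ n then (N' : ℝ) * mu n.toNat else 0)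
    (hlaw : Law mu 1 N') : ∑ n ∈ Icc (1 : ℤ) N', G n = N' := by
  rw [sum_Icc_int]
  have h2 : ∀ i ∈ range N', G ((1 + i : ℕ) : ℤ) = N' * mu (1 + i) := by
    intro i _
    rw [hG, if_pos (by omega), Int.toNat_natCast]
  rw [sum_congr rfl h2, ← mul_sum, hlaw.sum, mul_one]

theorem G_nonneg (hG : ∀ n : ℤ, G n = if 1 ≤ n then (N' : ℝ) * mu n.toNat else 0)
    (hlaw : Law mu 1 N') (n : ℤ) (hn : n ∈ Icc (1 : ℤ) N') : 0 ≤ G n := by
  rw [mem_Icc] at hn
  rw [hG, if_pos hn.1]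
  obtain ⟨i, hi⟩ : ∃ i : ℕ, n.toNat = 1 + i := ⟨n.toNat - 1, by omega⟩
  rw [hi]
  exact mul_nonneg (Nat.cast_nonneg _) (hlaw.nonneg i (by omega))

theorem cellZ_sub {q c u v : ℕ} (hu : 1 ≤ u) (hv : v ≤ N') :
    cellZ q c u v ⊆ Icc (1 : ℤ) N' := by
  intro n hn
  simp only [cellZ, mem_filter, mem_Icc] at hn ⊢
  omega

end

section
variable {ι : Type*} [Fintype ι] [DecidableEq ι] {prm : ι → ℕ}

/-- the pins of a cell are one congruence -/
theorem cl_pin (hpr : ∀ i, (prm i).Prime) (hinj : Function.Injective prm) {q c u v : ℕ}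
    (hqc : ∀ i, Nat.Coprime q (prm i)) {R : Finset ι} {x : ∀ i, ZMod (prm i)} {n0 : ℕ}
    (h0 : cl q c u v n0) (h0x : ∀ i ∈ R, ((n0 : ℤ) : ZMod (prm i)) = x i) (n : ℕ) :
    (cl q c u v n ∧ ∀ i ∈ R, ((n : ℤ) : ZMod (prm i)) = x i) ↔
      cl (q * ∏ i ∈ R, prm i) (n0 % (q * ∏ i ∈ R, prm i)) u v n := by
  have hcop : Nat.Coprime q (∏ i ∈ R, prm i) := Nat.Coprime.prod_right fun i _ => hqc i
  have key : n % (q * ∏ i ∈ R, prm i) = n0 % (q * ∏ i ∈ R, prm i) ↔
      (n % q = n0 % q ∧ ∀ i ∈ R, n % prm i = n0 % prm i) := by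
    have h1 : n % (q * ∏ i ∈ R, prm i) = n0 % (q * ∏ i ∈ R, prm i) ↔
        n ≡ n0 [MOD (q * ∏ i ∈ R, prm i)] := Iff.rfl
    rw [h1, ← Nat.modEq_and_modEq_iff_modEq_mul hcop]
    refine and_congr Iff.rfl ?_
    constructor
    · intro h i hi
      exact h.of_dvd (dvd_prod_of_mem prm hi)
    · intro h
      have h2 : ((∏ i ∈ R, prm i : ℕ) : ℤ) ∣ (n0 : ℤ) - n := by
        push_cast
        refine Finset.prod_dvd_of_coprime ?_ ?_
        · intro i _ j _ hij
          have : Nat.Coprime (prm i) (prm j) :=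
            (Nat.coprime_primes (hpr i) (hpr j)).2 fun h => hij (hinj h)
          exact Nat.isCoprime_iff_coprime.2 this
        · intro i hi
          exact (Nat.modEq_iff_dvd).1 (h i hi)
      exact (Nat.modEq_iff_dvd).2 h2
  have hz : ∀ i ∈ R, (((n : ℤ) : ZMod (prm i)) = x i ↔ n % prm i = n0 % prm i) := by
    intro i hi
    rw [← h0x i hi]
    push_cast
    rw [ZMod.natCast_eq_natCast_iff]
    rfl
  unfold cl at h0 ⊢
  rw [key]
  constructor
  · rintro ⟨⟨a1, a2, a3⟩, a4⟩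
    exact ⟨a1, a2, by rw [a3, h0.2.2], fun i hi => (hz i hi).1 (a4 i hi)⟩
  · rintro ⟨a1, a2, a3, a4⟩
    exact ⟨⟨a1, a2, by rw [a3, h0.2.2]⟩, fun i hi => (hz i hi).2 (a4 i hi)⟩

variable {N' : ℕ} {mu : ℕ → ℝ} {G : ℤ → ℝ}

theorem cel_eq_ms (hG : ∀ n : ℤ, G n = if 1 ≤ n then (N' : ℝ) * mu n.toNat else 0)
    {q c u v : ℕ} (hu : 1 ≤ u) (hv : v ≤ N') (R : Finset ι) (x : ∀ i, ZMod (prm i)) :
    cel (redZ prm) (cellZ q c u v) G R x =
      N' * ms mu N' (fun n => cl q c u v n ∧ ∀ i ∈ R, ((n : ℤ) : ZMod (prm i)) = x i) := by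
  have h1 := sum_cellZ hG (q := q) (c := c) hu hv (fun n => ∀ i ∈ R, (n : ZMod (prm i)) = x i)
  rw [← h1]
  rfl

theorem ms_congr {S T : ℕ → Prop} (h : ∀ n, S n ↔ T n) : ms mu N' S = ms mu N' T := by
  have : S = T := funext fun n => propext (h n)
  rw [this]

theorem ms_pos_ex {S : ℕ → Prop} (h : 0 < ms mu N' S) : ∃ n, S n ∧ mu n ≠ 0 := by
  classical
  by_contra hcon
  push Not at hcon
  have : ms mu N' S = 0 := by
    unfold ms SM
    refine sum_eq_zero fun i _ => ?_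
    by_cases hS : S (1 + i)
    · simp [hS, hcon _ hS]
    · simp [hS]
  linarith

/-- the cells with pins are cells -/
theorem cel_ms (hpr : ∀ i, (prm i).Prime) (hinj : Function.Injective prm)
    (hG : ∀ n : ℤ, G n = if 1 ≤ n then (N' : ℝ) * mu n.toNat else 0)
    {q c u v : ℕ} (hq : 1 ≤ q) (hqc : ∀ i, Nat.Coprime q (prm i)) (hu : 1 ≤ u) (hv : v ≤ N')
    (R : Finset ι) (x : ∀ i, ZMod (prm i))
    (hx : 0 < cel (redZ prm) (cellZ q c u v) G R x) :
    ∃ w < q * ∏ i ∈ R, prm i,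
      cel (redZ prm) (cellZ q c u v) G R x = N' * ms mu N' (cl (q * ∏ i ∈ R, prm i) w u v) ∧
      ∀ j ∉ R, ∀ b : ZMod (prm j),
        cel (redZ prm) (cellZ q c u v) G (insert j R) (Function.update x j b) =
          N' * ms mu N' (fun n => cl (q * ∏ i ∈ R, prm i) w u v n ∧ n % prm j = b.val) := by
  have hDpos : 0 < q * ∏ i ∈ R, prm i := Nat.mul_pos hq (prod_pos fun i _ => (hpr i).pos)
  have h1 := cel_eq_ms hG (q := q) (c := c) hu hv R x
  rw [h1] at hx
  have h2 : 0 < ms mu N' (fun n => cl q c u v n ∧ ∀ i ∈ R, ((n : ℤ) : ZMod (prm i)) = x i) := by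
    by_contra hcon
    have := mul_nonpos_of_nonneg_of_nonpos (Nat.cast_nonneg (α := ℝ) N') (not_lt.1 hcon)
    linarith
  obtain ⟨n0, ⟨h3, h4⟩, -⟩ := ms_pos_ex h2
  have hpin := cl_pin hpr hinj hqc h3 h4
  refine ⟨n0 % (q * ∏ i ∈ R, prm i), Nat.mod_lt _ hDpos, ?_, ?_⟩
  · rw [h1, ms_congr hpin]
  · intro j hj b
    have : NeZero (prm j) := ⟨(hpr j).ne_zero⟩
    rw [cel_eq_ms hG hu hv]
    congr 1
    refine ms_congr fun n => ?_
    rw [← hpin n, and_assoc]
    refine and_congr Iff.rfl ?_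
    have hb : ((n : ℤ) : ZMod (prm j)) = b ↔ n % prm j = b.val := by
      rw [← ZMod.val_natCast (prm j) n]
      push_cast
      exact ⟨fun h => by rw [h], fun h => ZMod.val_injective _ h⟩
    constructor
    · intro h
      refine ⟨fun i hi => ?_, ?_⟩
      · have hij : i ≠ j := fun h => hj (h ▸ hi)
        have := h i (mem_insert_of_mem hi)
        simpa [hij] using this
      · have := h j (mem_insert_self j R)
        rw [Function.update_self] at this
        exact hb.1 this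
    · rintro ⟨h5, h6⟩ i hi
      rcases mem_insert.1 hi with rfl | hi
      · rw [Function.update_self]
        exact hb.2 h6
      · have hij : i ≠ j := fun h => hj (h ▸ hi)
        rw [Function.update_of_ne hij]
        exact h5 i hi

theorem cm_rst (S : ℕ → Prop) (p a : ℕ) :
    cm (rst mu N' S) 1 N' p a = ms mu N' (fun n => S n ∧ n % p = a) / ms mu N' S := by
  classical
  unfold cm rst ms SM
  rw [sum_div]
  refine sum_congr rfl fun i _ => ?_
  by_cases h1 : S (1 + i) <;> by_cases h2 : (1 + i) % p = a <;> simp [h1, h2]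

/-- the marginals of the whole state -/
theorem w_eq (hpr : ∀ i, (prm i).Prime)
    (hG : ∀ n : ℤ, G n = if 1 ≤ n then (N' : ℝ) * mu n.toNat else 0)
    (hlaw : Law mu 1 N') [∀ i, NeZero (prm i)] (i : ι) (b : ZMod (prm i)) :
    m1 (push (redZ prm) (Icc (1 : ℤ) N') G) i b = cm mu 1 N' (prm i) b.val := by
  have hN : (0 : ℝ) < N' := by exact_mod_cast hlaw.pos
  rw [m1_push, sum_all hG hlaw, div_eq_iff hN.ne', mul_comm, ← sum_class hG]
  refine sum_congr rfl fun n _ => ?_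
  have h : redZ prm n i = b ↔ n % (prm i : ℤ) = (b.val : ℤ) := by
    unfold redZ
    rw [← ZMod.val_intCast]
    constructor
    · intro h; rw [h]
    · intro h
      exact ZMod.val_injective _ (by exact_mod_cast h)
  by_cases h' : redZ prm n i = b
  · rw [if_pos h', if_pos (h.1 h')]
  · rw [if_neg h', if_neg fun h2 => h' (h.2 h2)]

/-- the sum over `ZMod p` of a function of the representative -/
theorem sum_zmod (p : ℕ) [NeZero p] (g : ℕ → ℝ) :
    ∑ b : ZMod p, g b.val = ∑ a ∈ range p, g a :=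
  (Vale.Agent.P042.H954.rs_zmod p).sum g

/-- **exact dictionary**: a cell of the product space is one congruence class; its density, and the
relative entropies of its coordinates, are those of the integers -/
theorem exists_cell (hpr : ∀ i, (prm i).Prime) (hinj : Function.Injective prm)
    (hG : ∀ n : ℤ, G n = if 1 ≤ n then (N' : ℝ) * mu n.toNat else 0)
    (hlaw : Law mu 1 N') [∀ i, NeZero (prm i)]
    {q c u v : ℕ} (hq : 1 ≤ q) (hqc : ∀ i, Nat.Coprime q (prm i)) (hu : 1 ≤ u) (hv : v ≤ N')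
    {w : ∀ i, ZMod (prm i) → ℝ} (H : Ref w (push (redZ prm) (cellZ q c u v) G))
    (hm : 0 < ms mu N' (cl q c u v))
    {R : Finset ι} {x : ∀ i, ZMod (prm i)}
    (hx : 0 < marg (push (redZ prm) (cellZ q c u v) G) R x) :
    ∃ w0 < q * ∏ i ∈ R, prm i, 0 < ms mu N' (cl (q * ∏ i ∈ R, prm i) w0 u v) ∧
      gdw (fun i (_ : ZMod (prm i)) => ((prm i : ℕ) : ℝ)⁻¹)
          (push (redZ prm) (cellZ q c u v) G) R x =
        (q * ∏ i ∈ R, prm i : ℕ) * ms mu N' (cl (q * ∏ i ∈ R, prm i) w0 u v) /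
          (q * ms mu N' (cl q c u v)) ∧
      ∀ j ∉ R, Di w (gdw w (push (redZ prm) (cellZ q c u v) G)) j R x =
        ∑ b : ZMod (prm j), cm (rst mu N' (cl (q * ∏ i ∈ R, prm i) w0 u v)) 1 N' (prm j) b.val *
          (Real.log (cm (rst mu N' (cl (q * ∏ i ∈ R, prm i) w0 u v)) 1 N' (prm j) b.val) -
            Real.log (w j b)) := by
  have hN : (0 : ℝ) < N' := by exact_mod_cast hlaw.pos
  have hS : 0 < ∑ n ∈ cellZ q c u v, G n := by
    rw [sum_cellZ' hG hu hv]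
    exact mul_pos hN hm
  have hcel : 0 < cel (redZ prm) (cellZ q c u v) G R x := by
    rw [marg_push] at hx
    by_contra hcon
    have := div_nonpos_of_nonpos_of_nonneg (not_lt.1 hcon) hS.le
    linarith
  obtain ⟨w0, hw0, h1, h2⟩ := cel_ms hpr hinj hG hq hqc hu hv R x hcel
  have hms : 0 < ms mu N' (cl (q * ∏ i ∈ R, prm i) w0 u v) := by
    rw [h1] at hcel
    by_contra hcon
    have := mul_nonpos_of_nonneg_of_nonpos hN.le (not_lt.1 hcon)
    linarith
  refine ⟨w0, hw0, hms, ?_, ?_⟩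
  · have hP : (0 : ℝ) < ∏ i ∈ R, ((prm i : ℕ) : ℝ) :=
      prod_pos fun i _ => by exact_mod_cast (hpr i).pos
    have hq0 : (0 : ℝ) < q := by exact_mod_cast hq
    unfold gdw
    rw [marg_push, h1, sum_cellZ' hG hu hv, prod_inv_distrib, div_inv_eq_mul]
    push_cast
    field_simp
  · intro j hj
    have hprob := H.prob
    rw [Di_push H hS hj hcel]
    unfold ck
    refine sum_congr rfl fun b _ => ?_
    have e1 : cel (redZ prm) (cellZ q c u v) G (insert j R) (Function.update x j b) /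
        cel (redZ prm) (cellZ q c u v) G R x =
        cm (rst mu N' (cl (q * ∏ i ∈ R, prm i) w0 u v)) 1 N' (prm j) b.val := by
      rw [h2 j hj b, h1, cm_rst, mul_div_mul_left _ _ hN.ne']
    rw [e1]
    by_cases hb : cm (rst mu N' (cl (q * ∏ i ∈ R, prm i) w0 u v)) 1 N' (prm j) b.val = 0
    · rw [hb, zero_mul, zero_mul]
    · have hwb : w j b ≠ 0 := by
        intro h0
        apply hb
        rw [← e1]
        have h3 := marg_eq_zero_of_w H.prob H.ac (R := insert j R) (mem_insert_self j R)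
          (x := Function.update x j b) (by simpa using h0)
        rw [marg_push, div_eq_zero_iff] at h3
        rcases h3 with h3 | h3
        · rw [h3, zero_div]
        · exact absurd h3 hS.ne'
      rw [Real.log_div hb hwb]

/-- the same with the marginals of a law as reference -/
theorem exists_cell' (hpr : ∀ i, (prm i).Prime) (hinj : Function.Injective prm)
    (hG : ∀ n : ℤ, G n = if 1 ≤ n then (N' : ℝ) * mu n.toNat else 0)
    (hlaw : Law mu 1 N') [∀ i, NeZero (prm i)]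
    {q c u v : ℕ} (hq : 1 ≤ q) (hqc : ∀ i, Nat.Coprime q (prm i)) (hu : 1 ≤ u) (hv : v ≤ N')
    {w : ∀ i, ZMod (prm i) → ℝ} (H : Ref w (push (redZ prm) (cellZ q c u v) G))
    {nu : ℕ → ℝ} (hw : ∀ i b, w i b = cm nu 1 N' (prm i) b.val)
    (hm : 0 < ms mu N' (cl q c u v))
    {R : Finset ι} {x : ∀ i, ZMod (prm i)}
    (hx : 0 < marg (push (redZ prm) (cellZ q c u v) G) R x) :
    ∃ w0 < q * ∏ i ∈ R, prm i, 0 < ms mu N' (cl (q * ∏ i ∈ R, prm i) w0 u v) ∧
      gdw (fun i (_ : ZMod (prm i)) => ((prm i : ℕ) : ℝ)⁻¹)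
          (push (redZ prm) (cellZ q c u v) G) R x =
        (q * ∏ i ∈ R, prm i : ℕ) * ms mu N' (cl (q * ∏ i ∈ R, prm i) w0 u v) /
          (q * ms mu N' (cl q c u v)) ∧
      ∀ j ∉ R, Di w (gdw w (push (redZ prm) (cellZ q c u v) G)) j R x =
        klc (rst mu N' (cl (q * ∏ i ∈ R, prm i) w0 u v)) nu N' (prm j) := by
  obtain ⟨w0, hw0, h1, h2, h3⟩ := exists_cell hpr hinj hG hlaw hq hqc hu hv H hm hx
  refine ⟨w0, hw0, h1, h2, fun j hj => ?_⟩
  rw [h3 j hj]
  unfold klc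
  rw [← sum_zmod (prm j) fun a =>
    cm (rst mu N' (cl (q * ∏ i ∈ R, prm i) w0 u v)) 1 N' (prm j) a *
      (Real.log (cm (rst mu N' (cl (q * ∏ i ∈ R, prm i) w0 u v)) 1 N' (prm j) a) -
        Real.log (cm nu 1 N' (prm j) a))]
  refine sum_congr rfl fun b _ => ?_
  rw [hw j b]

/-- the marginals of the whole state are reference weights of all cells -/
theorem ref_cell (hG : ∀ n : ℤ, G n = if 1 ≤ n then (N' : ℝ) * mu n.toNat else 0)
    (hlaw : Law mu 1 N') [∀ i, NeZero (prm i)]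
    {q c u v : ℕ} (hu : 1 ≤ u) (hv : v ≤ N') (hm : 0 < ms mu N' (cl q c u v)) :
    Ref (m1 (push (redZ prm) (Icc (1 : ℤ) N') G)) (push (redZ prm) (cellZ q c u v) G) := by
  have hN : (0 : ℝ) < N' := by exact_mod_cast hlaw.pos
  refine push_ref (cellZ_sub hu hv) (G_nonneg hG hlaw) ?_
  rw [sum_cellZ' hG hu hv]
  exact mul_pos hN hm

end

end Vale.Agent.P042.H359
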