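import Vale.Agent.P042.SS.ANFou0
import Vale.Agent.P042.SS.ANVt

set_option autoImplicit false

/-!
The two-tent trick: for a weight supported on two short windows at distance about `3H`, the sum of
the landed bilinear forms at the two lengths `H` and `H + h` is a constant times the product of
the two windowed exponential sums.
-/

namespace Vale.Agent.P042.H359

open Polynomial Finset Vale.Agent.P042.SS

/-- number of `y` in `Bil` with given difference `t` (a tent), as an integer -/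
noncomputable def tent (H : ℕ) (t : ℤ) : ℤ := ((VT.U H t).card : ℤ)

theorem tent_up {H : ℕ} {t : ℤ} (h1 : 2 * (H : ℤ) + 1 ≤ t) (h2 : t ≤ 3 * (H : ℤ) + 1) :
    tent H t = t - 2 * H - 1 := by
  have h : VT.U H t = Finset.Icc (H + 1) (t.toNat - H - 1) := by
    ext u
    rw [VT.mem_U, Finset.mem_Icc]
    omega
  rw [tent, h, Nat.card_Icc]
  omega

theorem tent_down {H : ℕ} {t : ℤ} (h1 : 3 * (H : ℤ) + 1 ≤ t) (h2 : t ≤ 4 * (H : ℤ) + 1) :
    tent H t = 4 * H + 1 - t := by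
  have h : VT.U H t = Finset.Icc (t.toNat - 2 * H) (2 * H) := by
    ext u
    rw [VT.mem_U, Finset.mem_Icc]
    omega
  rw [tent, h, Nat.card_Icc]
  omega

theorem tent_low {H : ℕ} {t : ℤ} (h1 : t ≤ 2 * (H : ℤ) + 1) : tent H t = 0 := by
  have h : VT.U H t = ∅ := by
    rw [Finset.eq_empty_iff_forall_notMem]
    intro u hu
    rw [VT.mem_U] at hu
    omega
  rw [tent, h]
  simp

theorem two_tent {H h : ℕ} {t : ℤ} (hh : 3 * h ≤ H) (h1 : 3 * (H : ℤ) + 1 ≤ t)
    (h2 : t ≤ 3 * (H : ℤ) + 3 * h + 1) :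
    tent H t + tent (H + h) t = 2 * (H : ℤ) - 2 * h := by
  rw [tent_down h1 (by omega), tent_up (by push_cast; omega) (by push_cast; omega)]
  push_cast
  ring

/-- `Bil` as a double sum with the tent -/
theorem Bil_tent {G : ℤ → ℝ} {N' H : ℕ} (hsupp : ∀ n, G n ≠ 0 → 1 ≤ n ∧ n ≤ (N' : ℤ))
    (hH : 2 * H ≤ N') (θ : ℝ) :
    Bil G N' H θ = ∑ n ∈ Icc (1 : ℤ) N', ∑ m ∈ Icc (1 : ℤ) N',
      ((tent H (n - m) : ℝ) : ℂ) * (((G n : ℂ) * e (-((n : ℝ) * θ))) *
        ((G m : ℂ) * e ((m : ℝ) * θ))) := by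
  have key : ∀ n ∈ Icc (1 : ℤ) N', ∀ u ∈ Ioc H (2 * H),
      ∑ u' ∈ Ioc H (2 * H), e (-(((u + u' : ℕ) : ℝ) * θ)) *
        ((G n * G (n - ((u + u' : ℕ) : ℤ)) : ℝ) : ℂ) =
      ∑ m ∈ Icc (1 : ℤ) N', (if (H : ℤ) < n - m - u ∧ n - m - u ≤ 2 * H then (1 : ℂ) else 0) *
        (((G n : ℂ) * e (-((n : ℝ) * θ))) * ((G m : ℂ) * e ((m : ℝ) * θ))) := by
    intro n _ u hu
    have h1 : ∀ m ∈ Icc (1 : ℤ) N',
        (if (H : ℤ) < n - m - u ∧ n - m - u ≤ 2 * H then (1 : ℂ) else 0) *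
        (((G n : ℂ) * e (-((n : ℝ) * θ))) * ((G m : ℂ) * e ((m : ℝ) * θ))) =
        if (H : ℤ) < n - m - u ∧ n - m - u ≤ 2 * H then
          ((G n * G m : ℝ) : ℂ) * e (-(((n - m : ℤ) : ℝ) * θ)) else 0 := by
      intro m _
      split_ifs
      · rw [one_mul]
        calc ((G n : ℂ) * e (-((n : ℝ) * θ))) * ((G m : ℂ) * e ((m : ℝ) * θ))
            = ((G n * G m : ℝ) : ℂ) * (e (-((n : ℝ) * θ)) * e ((m : ℝ) * θ)) := by
              push_cast; ring
          _ = _ := by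
            rw [← e_add]
            congr 2
            push_cast
            ring
      · rw [zero_mul]
    rw [Finset.sum_congr rfl h1, ← Finset.sum_filter]
    have h2 : ∑ u' ∈ Ioc H (2 * H), e (-(((u + u' : ℕ) : ℝ) * θ)) *
        ((G n * G (n - ((u + u' : ℕ) : ℤ)) : ℝ) : ℂ) =
        ∑ m ∈ Icc (n - u - 2 * H) (n - u - H - 1),
          ((G n * G m : ℝ) : ℂ) * e (-(((n - m : ℤ) : ℝ) * θ)) := by
      apply Finset.sum_nbij' (fun u' : ℕ => n - u - (u' : ℤ)) (fun m : ℤ => (n - u - m).toNat)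
      · intro u' hu'
        rw [Finset.mem_Ioc] at hu'
        rw [Finset.mem_Icc]
        omega
      · intro m hm
        rw [Finset.mem_Icc] at hm
        rw [Finset.mem_Ioc]
        omega
      · intro u' hu'
        rw [Finset.mem_Ioc] at hu'
        omega
      · intro m hm
        rw [Finset.mem_Icc] at hm
        omega
      · intro u' _
        have e1 : n - ((u + u' : ℕ) : ℤ) = n - u - u' := by push_cast; ring
        have e2 : ((u + u' : ℕ) : ℝ) = ((n - (n - u - (u' : ℤ)) : ℤ) : ℝ) := by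
          push_cast; ring
        rw [e1, e2, mul_comm]
    rw [h2]
    symm
    apply Finset.sum_subset_zero_on_sdiff
    · intro m hm
      rw [Finset.mem_filter, Finset.mem_Icc] at hm
      rw [Finset.mem_Icc]
      omega
    · intro m hm
      rw [Finset.mem_sdiff, Finset.mem_filter, Finset.mem_Icc, Finset.mem_Icc] at hm
      have h3 : G m = 0 := by
        by_contra h4
        have := hsupp m h4
        exact hm.2 ⟨by omega, by omega⟩
      rw [h3]
      simp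
    · intro m _
      rfl
  rw [AN.Bil_eq hsupp hH]
  have h1 : ∀ u ∈ Ioc H (2 * H), ∑ u' ∈ Ioc H (2 * H),
      e (-(((u + u' : ℕ) : ℝ) * θ)) * (AN.Rc G N' ((u + u' : ℕ) : ℤ) : ℂ) =
      ∑ n ∈ Icc (1 : ℤ) N', ∑ m ∈ Icc (1 : ℤ) N',
        (if (H : ℤ) < n - m - u ∧ n - m - u ≤ 2 * H then (1 : ℂ) else 0) *
        (((G n : ℂ) * e (-((n : ℝ) * θ))) * ((G m : ℂ) * e ((m : ℝ) * θ))) := by
    intro u hu
    rw [← Finset.sum_congr rfl (fun n hn => key n hn u hu), Finset.sum_comm]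
    refine Finset.sum_congr rfl fun u' _ => ?_
    unfold AN.Rc
    rw [Complex.ofReal_sum, Finset.mul_sum]
  rw [Finset.sum_congr rfl h1, Finset.sum_comm]
  refine Finset.sum_congr rfl fun n _ => ?_
  rw [Finset.sum_comm]
  refine Finset.sum_congr rfl fun m _ => ?_
  rw [← Finset.sum_mul]
  congr 1
  rw [tent, ← Finset.sum_filter, Finset.sum_const, nsmul_eq_mul, mul_one]
  unfold VT.U
  push_cast
  rfl

/-- **Two tents.**  `G` is supported on the two windows `(z, z+h]` and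
`(z+3H+h, z+3H+2h]`. -/
theorem two_window {G : ℤ → ℝ} {N' H h : ℕ} {z : ℤ}
    (hsupp : ∀ n, G n ≠ 0 → 1 ≤ n ∧ n ≤ (N' : ℤ)) (hHN : 2 * (H + h) ≤ N') (hh : 3 * h ≤ H)
    (hwin : ∀ n, G n ≠ 0 → n ∈ Ioc z (z + h) ∨ n ∈ Ioc (z + 3 * H + h) (z + 3 * H + h + h))
    (θ : ℝ) :
    Bil G N' H θ + Bil G N' (H + h) θ =
      ((2 * (H : ℝ) - 2 * h : ℝ) : ℂ) *
        (Fw G (z + 3 * H + h) h θ * (starRingEnd ℂ) (Fw G z h θ)) := by
  rw [Bil_tent hsupp (by omega), Bil_tent hsupp hHN, ← Finset.sum_add_distrib]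
  have hF1 : Fw G (z + 3 * H + h) h θ = ∑ n ∈ Icc (1 : ℤ) N',
      (if n ∈ Ioc (z + 3 * H + h) (z + 3 * H + h + h) then (G n : ℂ) * e (-((n : ℝ) * θ))
        else 0) := by
    rw [← Finset.sum_filter]
    unfold Fw
    symm
    apply Finset.sum_subset_zero_on_sdiff
    · intro n hn
      exact (Finset.mem_filter.1 hn).2
    · intro n hn
      rw [Finset.mem_sdiff, Finset.mem_filter] at hn
      have h3 : G n = 0 := by
        by_contra h4
        exact hn.2 ⟨Finset.mem_Icc.2 (hsupp n h4), hn.1⟩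
      rw [h3]
      simp
    · intro n _
      rfl
  have hF2 : (starRingEnd ℂ) (Fw G z h θ) = ∑ m ∈ Icc (1 : ℤ) N',
      (if m ∈ Ioc z (z + h) then (G m : ℂ) * e ((m : ℝ) * θ) else 0) := by
    rw [← Finset.sum_filter]
    unfold Fw
    rw [map_sum]
    symm
    apply Finset.sum_subset_zero_on_sdiff
    · intro n hn
      exact (Finset.mem_filter.1 hn).2
    · intro n hn
      rw [Finset.mem_sdiff, Finset.mem_filter] at hn
      have h3 : G n = 0 := by
        by_contra h4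
        exact hn.2 ⟨Finset.mem_Icc.2 (hsupp n h4), hn.1⟩
      rw [h3]
      simp
    · intro n _
      rw [map_mul, AN.e_conj, Complex.conj_ofReal, neg_neg]
  rw [hF1, hF2, Finset.sum_mul_sum, Finset.mul_sum]
  refine Finset.sum_congr rfl fun n _ => ?_
  rw [← Finset.sum_add_distrib, Finset.mul_sum]
  refine Finset.sum_congr rfl fun m _ => ?_
  by_cases hn : G n = 0
  · rw [hn]
    simp
  by_cases hm : G m = 0
  · rw [hm]
    simp
  have wn := hwin n hn
  have wm := hwin m hm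
  rw [← add_mul]
  rw [Finset.mem_Ioc, Finset.mem_Ioc] at wn wm
  by_cases c1 : n ∈ Ioc (z + 3 * H + h) (z + 3 * H + h + h)
  · by_cases c2 : m ∈ Ioc z (z + h)
    · rw [if_pos c1, if_pos c2]
      rw [Finset.mem_Ioc] at c1 c2
      have ht := two_tent (H := H) (h := h) (t := n - m) hh (by omega) (by omega)
      have ht' : ((tent H (n - m) : ℝ) : ℂ) + ((tent (H + h) (n - m) : ℝ) : ℂ) =
          ((2 * (H : ℝ) - 2 * h : ℝ) : ℂ) := by
        have : (tent H (n - m) : ℝ) + (tent (H + h) (n - m) : ℝ) = 2 * (H : ℝ) - 2 * h := by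
          exact_mod_cast ht
        rw [← Complex.ofReal_add, this]
      rw [ht']
    · rw [if_neg c2, mul_zero, mul_zero]
      rw [Finset.mem_Ioc] at c1 c2
      rw [tent_low (by omega), tent_low (by push_cast; omega)]
      simp
  · rw [if_neg c1, zero_mul, mul_zero]
    rw [Finset.mem_Ioc] at c1
    rw [tent_low (by omega), tent_low (by push_cast; omega)]
    simp

/-- restriction of a weight to the two windows -/
noncomputable def res (G : ℤ → ℝ) (z : ℤ) (H h : ℕ) (n : ℤ) : ℝ :=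
  if n ∈ Ioc z (z + h) ∨ n ∈ Ioc (z + 3 * H + h) (z + 3 * H + h + h) then G n else 0

/-- linear consequence: bounds for the two bilinear sums give a bound for the product of the
windowed sums of ONE pair of windows -/
theorem two_window_bound {G : ℤ → ℝ} {N' H h : ℕ} {z : ℤ} {b1 b2 : ℝ}
    (hsupp : ∀ n, G n ≠ 0 → 1 ≤ n ∧ n ≤ (N' : ℤ)) (hHN : 2 * (H + h) ≤ N') (hh : 3 * h ≤ H)
    (hH : 1 ≤ H)
    (hwin : ∀ n, G n ≠ 0 → n ∈ Ioc z (z + h) ∨ n ∈ Ioc (z + 3 * H + h) (z + 3 * H + h + h))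
    (Qs : Finset ℕ) (c : ℕ → ℕ → ℂ)
    (h1 : ‖∑ q ∈ Qs, ∑ a ∈ (range q).filter (Nat.Coprime q),
      c a q * Bil G N' H ((a : ℝ) / q)‖ ≤ b1)
    (h2 : ‖∑ q ∈ Qs, ∑ a ∈ (range q).filter (Nat.Coprime q),
      c a q * Bil G N' (H + h) ((a : ℝ) / q)‖ ≤ b2) :
    (H : ℝ) * ‖∑ q ∈ Qs, ∑ a ∈ (range q).filter (Nat.Coprime q),
      c a q * (Fw G (z + 3 * H + h) h ((a : ℝ) / q) *
        (starRingEnd ℂ) (Fw G z h ((a : ℝ) / q)))‖ ≤ b1 + b2 := by
  have key : ((2 * (H : ℝ) - 2 * h : ℝ) : ℂ) *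
      ∑ q ∈ Qs, ∑ a ∈ (range q).filter (Nat.Coprime q),
        c a q * (Fw G (z + 3 * H + h) h ((a : ℝ) / q) *
          (starRingEnd ℂ) (Fw G z h ((a : ℝ) / q))) =
      ∑ q ∈ Qs, ∑ a ∈ (range q).filter (Nat.Coprime q), c a q * Bil G N' H ((a : ℝ) / q) +
      ∑ q ∈ Qs, ∑ a ∈ (range q).filter (Nat.Coprime q),
        c a q * Bil G N' (H + h) ((a : ℝ) / q) := by
    rw [Finset.mul_sum, ← Finset.sum_add_distrib]
    refine Finset.sum_congr rfl fun q _ => ?_
    rw [Finset.mul_sum, ← Finset.sum_add_distrib]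
    refine Finset.sum_congr rfl fun a _ => ?_
    rw [← mul_add, two_window hsupp hHN hh hwin]
    ring
  have hn := norm_add_le
    (∑ q ∈ Qs, ∑ a ∈ (range q).filter (Nat.Coprime q), c a q * Bil G N' H ((a : ℝ) / q))
    (∑ q ∈ Qs, ∑ a ∈ (range q).filter (Nat.Coprime q), c a q * Bil G N' (H + h) ((a : ℝ) / q))
  rw [← key, norm_mul, Complex.norm_real, Real.norm_eq_abs] at hn
  have hpos : (H : ℝ) ≤ |2 * (H : ℝ) - 2 * h| := by
    have h3 : (3 : ℝ) * h ≤ H := by exact_mod_cast hh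
    refine le_trans ?_ (le_abs_self _)
    have h4 : (0 : ℝ) ≤ H := by positivity
    linarith
  exact ((mul_le_mul_of_nonneg_right hpos (norm_nonneg _)).trans hn).trans (by linarith)

end Vale.Agent.P042.H359
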