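import Vale.Agent.P042.SS.ANHolds
import Vale.Agent.P042.H359.TwoTent

set_option autoImplicit false

/-!
The circle method for ONE pair of windows and two SIGNED functions.
-/

namespace Vale.Agent.P042.H359

open Polynomial Finset Vale.Agent.P042.SS

theorem point_holds : PointStmt :=
  point_of grow_holds vt_holds min_holds maj_holds (sep_of vt_holds) gam_holds

/-- Fourier side for a signed weight; the freeness is only needed for differences in the support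
of the tent -/
theorem fou_signed (f : ℤ[X]) (N' H Q x0 X : ℕ) (δ : ℝ) (G : ℤ → ℝ) (hH : 1 ≤ H)
    (hN : 2 * H ≤ N') (hx0 : 1 ≤ x0) (hδ : 0 ≤ δ)
    (hsupp : ∀ n, G n ≠ 0 → 1 ≤ n ∧ n ≤ (N' : ℤ))
    (hfree : ∀ n m : ℤ, G n ≠ 0 → G m ≠ 0 → 2 * (H : ℤ) + 1 < n - m →
      ∀ x : ℕ, 1 ≤ x → n - m ≠ f.eval (x : ℤ))
    (hpt : ∀ θ : ℝ, ‖Sx f H x0 X θ - Mn f H Q θ‖ ≤ δ) :
    ‖∑ q ∈ Icc 1 Q, ∑ a ∈ (range q).filter (Nat.Coprime q),
      Gam f a q * Bil G N' H ((a : ℝ) / q)‖ ≤ δ * (H : ℝ) ^ 2 * ∑ n ∈ Icc (1 : ℤ) N', G n ^ 2 := by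
  set T : ℕ := N' + 4 * H + ∑ x ∈ Ico x0 X, (fv f x).natAbs + 1 with hTdef
  have hT : 0 < T := by omega
  have hTr : (0 : ℝ) < T := by exact_mod_cast hT
  have hHr : (0 : ℝ) < H := by exact_mod_cast hH
  have hTx : ∀ x ∈ Ico x0 X, |fv f x| + N' ≤ T := by
    intro x hx
    have h1 : (fv f x).natAbs ≤ ∑ x ∈ Ico x0 X, (fv f x).natAbs :=
      Finset.single_le_sum (f := fun x => (fv f x).natAbs) (fun _ _ => Nat.zero_le _) hx
    have h2 : |fv f x| = (((fv f x).natAbs : ℕ) : ℤ) := Int.abs_eq_natAbs _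
    rw [h2]
    omega
  have hS : ∑ j ∈ range T, Sx f H x0 X ((j : ℝ) / T) *
      ((‖AN.Gh G N' ((j : ℝ) / T)‖ ^ 2 : ℝ) : ℂ) = 0 := by
    unfold Sx
    simp only [Finset.sum_mul]
    rw [Finset.sum_comm]
    apply Finset.sum_eq_zero
    intro x hx
    have h1 : ∀ j ∈ range T, ((gp f x * vt H (fv f x) : ℝ) : ℂ) *
        e ((j : ℝ) / T * (fv f x : ℝ)) * ((‖AN.Gh G N' ((j : ℝ) / T)‖ ^ 2 : ℝ) : ℂ) =
        ((gp f x * vt H (fv f x) : ℝ) : ℂ) *
          (e ((fv f x : ℝ) * ((j : ℝ) / T)) * ((‖AN.Gh G N' ((j : ℝ) / T)‖ ^ 2 : ℝ) : ℂ)) := by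
      intro j _
      rw [mul_comm ((j : ℝ) / T), mul_assoc]
    rw [Finset.sum_congr rfl h1, ← Finset.mul_sum, AN.corr hsupp hT _ (hTx x hx)]
    by_cases hv : vt H (fv f x) = 0
    · rw [hv]
      simp
    · have hpos : 2 * (H : ℤ) + 2 ≤ fv f x := by
        by_contra hlt
        exact hv (VT.vt_low (by omega))
      have hR : AN.Rc G N' (fv f x) = 0 := by
        unfold AN.Rc
        apply Finset.sum_eq_zero
        intro n _
        by_contra hne
        rw [mul_eq_zero, not_or] at hne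
        have hx1 : 1 ≤ x := hx0.trans (Finset.mem_Ico.1 hx).1
        exact hfree n (n - fv f x) hne.1 hne.2 (by omega) x hx1 (by unfold fv; ring)
      rw [hR]
      simp
  have hV : ∀ θ : ℝ, ∑ j ∈ range T, Vk H ((j : ℝ) / T - θ) *
      ((‖AN.Gh G N' ((j : ℝ) / T)‖ ^ 2 : ℝ) : ℂ) = T * Bil G N' H θ / (H : ℂ) ^ 2 :=
    fun θ => AN.side_V (by omega) hT hsupp (by omega) θ
  have hM : ∑ j ∈ range T, Mn f H Q ((j : ℝ) / T) *
      ((‖AN.Gh G N' ((j : ℝ) / T)‖ ^ 2 : ℝ) : ℂ) =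
      (T / (H : ℂ) ^ 2) * ∑ q ∈ Icc 1 Q, ∑ a ∈ (range q).filter (Nat.Coprime q),
        Gam f a q * Bil G N' H ((a : ℝ) / q) := by
    unfold Mn
    simp only [Finset.sum_mul]
    rw [Finset.sum_comm, Finset.mul_sum]
    refine Finset.sum_congr rfl fun q _ => ?_
    rw [Finset.sum_comm, Finset.mul_sum]
    refine Finset.sum_congr rfl fun a _ => ?_
    simp only [mul_assoc]
    rw [← Finset.mul_sum, hV]
    ring
  have hdiff : ∑ j ∈ range T, (Sx f H x0 X ((j : ℝ) / T) - Mn f H Q ((j : ℝ) / T)) *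
      ((‖AN.Gh G N' ((j : ℝ) / T)‖ ^ 2 : ℝ) : ℂ) =
      -((T / (H : ℂ) ^ 2) * ∑ q ∈ Icc 1 Q, ∑ a ∈ (range q).filter (Nat.Coprime q),
        Gam f a q * Bil G N' H ((a : ℝ) / q)) := by
    simp only [sub_mul]
    rw [Finset.sum_sub_distrib, hS, hM, zero_sub]
  have hnorm : ‖∑ j ∈ range T, (Sx f H x0 X ((j : ℝ) / T) - Mn f H Q ((j : ℝ) / T)) *
      ((‖AN.Gh G N' ((j : ℝ) / T)‖ ^ 2 : ℝ) : ℂ)‖ ≤
      δ * (T * ∑ n ∈ Icc (1 : ℤ) N', G n ^ 2) := by
    rw [← AN.parseval_Gh hsupp hT (by omega), Finset.mul_sum]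
    refine (norm_sum_le _ _).trans (Finset.sum_le_sum fun j _ => ?_)
    rw [norm_mul, Complex.norm_real, Real.norm_eq_abs, abs_of_nonneg (by positivity)]
    exact mul_le_mul_of_nonneg_right (hpt _) (by positivity)
  rw [hdiff, norm_neg, norm_mul, norm_div, norm_pow, Complex.norm_natCast,
    Complex.norm_natCast] at hnorm
  set W := ‖∑ q ∈ Icc 1 Q, ∑ a ∈ (range q).filter (Nat.Coprime q),
      Gam f a q * Bil G N' H ((a : ℝ) / q)‖ with hW
  set E2 := ∑ n ∈ Icc (1 : ℤ) N', G n ^ 2 with hE2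
  have h1 : (T : ℝ) / (H : ℝ) ^ 2 * W = T * (W / (H : ℝ) ^ 2) := by ring
  rw [h1] at hnorm
  have h2 : W / (H : ℝ) ^ 2 ≤ δ * E2 := by
    have h3 : (T : ℝ) * (W / (H : ℝ) ^ 2) ≤ T * (δ * E2) := by linarith
    exact le_of_mul_le_mul_left h3 hTr
  rw [div_le_iff₀ (by positivity)] at h2
  linarith

/-- shift of a windowed sum -/
theorem Fw_shift (g : ℤ → ℝ) (z y : ℤ) (M : ℕ) (θ : ℝ) :
    Fw g (z + y) M θ = e (-((z : ℝ) * θ)) * Fw (fun n => g (n + z)) y M θ := by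
  unfold Fw
  rw [Finset.mul_sum]
  apply Finset.sum_nbij' (fun n : ℤ => n - z) (fun n : ℤ => n + z)
  · intro n hn
    rw [Finset.mem_Ioc] at hn ⊢
    omega
  · intro n hn
    rw [Finset.mem_Ioc] at hn ⊢
    omega
  · intro n _
    omega
  · intro n _
    omega
  · intro n _
    have h1 : n - z + z = n := by ring
    simp only [h1]
    calc (g n : ℂ) * e (-((n : ℝ) * θ))
        = (g n : ℂ) * (e (-((z : ℝ) * θ)) * e (-(((n - z : ℤ) : ℝ) * θ))) := by
          rw [← e_add]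
          congr 2
          push_cast
          ring
      _ = _ := by ring

theorem pair_shift (g1 g2 : ℤ → ℝ) (z y1 y2 : ℤ) (M : ℕ) (θ : ℝ) :
    Fw g1 (z + y1) M θ * (starRingEnd ℂ) (Fw g2 (z + y2) M θ) =
      Fw (fun n => g1 (n + z)) y1 M θ *
        (starRingEnd ℂ) (Fw (fun n => g2 (n + z)) y2 M θ) := by
  rw [Fw_shift, Fw_shift, map_mul, AN.e_conj]
  have h1 : e (-((z : ℝ) * θ)) * e (-(-((z : ℝ) * θ))) = 1 := by
    rw [← e_add, add_neg_cancel, e_zero]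
  calc _ = (e (-((z : ℝ) * θ)) * e (-(-((z : ℝ) * θ)))) *
        (Fw (fun n => g1 (n + z)) y1 M θ *
        (starRingEnd ℂ) (Fw (fun n => g2 (n + z)) y2 M θ)) := by ring
    _ = _ := by rw [h1, one_mul]

/-- the pair form of the Fourier side, from the pointwise bounds at `H` and `H + h` -/
theorem pair_of_point (f : ℤ[X]) (H h Q x0 X x0' X' : ℕ) (δ : ℝ) (z : ℤ) (g1 g2 : ℤ → ℝ)
    (hH : 1 ≤ H) (hh : 3 * h ≤ H) (hx0 : 1 ≤ x0) (hx0' : 1 ≤ x0') (hδ : 0 ≤ δ)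
    (hfree : ∀ n ∈ Ioc (z + 3 * H + h) (z + 3 * H + h + h), ∀ m ∈ Ioc z (z + h),
      g1 n ≠ 0 → g2 m ≠ 0 → ∀ x : ℕ, 1 ≤ x → n - m ≠ f.eval (x : ℤ))
    (hpt : ∀ θ : ℝ, ‖Sx f H x0 X θ - Mn f H Q θ‖ ≤ δ)
    (hpt' : ∀ θ : ℝ, ‖Sx f (H + h) x0' X' θ - Mn f (H + h) Q θ‖ ≤ δ) :
    ‖∑ q ∈ Icc 1 Q, ∑ a ∈ (range q).filter (Nat.Coprime q),
      Gam f a q * (Fw g1 (z + 3 * H + h) h ((a : ℝ) / q) *
        (starRingEnd ℂ) (Fw g2 z h ((a : ℝ) / q)))‖ ≤
      6 * δ * H * (Real.sqrt (∑ n ∈ Ioc (z + 3 * H + h) (z + 3 * H + h + h), g1 n ^ 2) *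
        Real.sqrt (∑ m ∈ Ioc z (z + h), g2 m ^ 2)) := by
  set A : ℝ := ∑ n ∈ Ioc (z + 3 * H + h) (z + 3 * H + h + h), g1 n ^ 2 with hA
  set B : ℝ := ∑ m ∈ Ioc z (z + h), g2 m ^ 2 with hB
  have hA0 : 0 ≤ A := Finset.sum_nonneg fun _ _ => sq_nonneg _
  have hB0 : 0 ≤ B := Finset.sum_nonneg fun _ _ => sq_nonneg _
  have hRHS : 0 ≤ 6 * δ * H * (Real.sqrt A * Real.sqrt B) := by positivity
  -- degenerate cases
  rcases hA0.eq_or_lt with hA1 | hA1
  · have hz : ∀ θ : ℝ, Fw g1 (z + 3 * H + h) h θ = 0 := by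
      intro θ
      unfold Fw
      apply Finset.sum_eq_zero
      intro n hn
      have h1 := (Finset.sum_eq_zero_iff_of_nonneg (fun _ _ => sq_nonneg _)).1 hA1.symm n hn
      rw [pow_eq_zero_iff (by norm_num)] at h1
      rw [h1]
      simp
    simp only [hz, zero_mul, mul_zero, Finset.sum_const_zero, norm_zero]
    exact hRHS
  rcases hB0.eq_or_lt with hB1 | hB1
  · have hz : ∀ θ : ℝ, Fw g2 z h θ = 0 := by
      intro θ
      unfold Fw
      apply Finset.sum_eq_zero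
      intro n hn
      have h1 := (Finset.sum_eq_zero_iff_of_nonneg (fun _ _ => sq_nonneg _)).1 hB1.symm n hn
      rw [pow_eq_zero_iff (by norm_num)] at h1
      rw [h1]
      simp
    simp only [hz, map_zero, mul_zero, Finset.sum_const_zero, norm_zero]
    exact hRHS
  -- the scaled sum of the two functions, shifted to the origin
  set α : ℝ := 1 / Real.sqrt A with hα
  set β : ℝ := 1 / Real.sqrt B with hβ
  have hsA : 0 < Real.sqrt A := Real.sqrt_pos.2 hA1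
  have hsB : 0 < Real.sqrt B := Real.sqrt_pos.2 hB1
  have hα0 : 0 < α := by positivity
  have hβ0 : 0 < β := by positivity
  set N' : ℕ := 3 * H + 2 * h with hN'
  set G : ℤ → ℝ := fun n =>
    if n ∈ Ioc (3 * (H : ℤ) + h) (3 * H + h + h) then α * g1 (n + z)
    else if n ∈ Ioc (0 : ℤ) h then β * g2 (n + z) else 0 with hG
  have hsupp : ∀ n, G n ≠ 0 → 1 ≤ n ∧ n ≤ (N' : ℤ) := by
    intro n hn
    simp only [hG] at hn
    split_ifs at hn with h1 h2
    · rw [Finset.mem_Ioc] at h1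
      constructor <;> push_cast [hN'] <;> omega
    · rw [Finset.mem_Ioc] at h2
      constructor <;> push_cast [hN'] <;> omega
    · exact absurd rfl hn
  have hwin : ∀ n, G n ≠ 0 → n ∈ Ioc (0 : ℤ) (0 + h) ∨
      n ∈ Ioc ((0 : ℤ) + 3 * H + h) (0 + 3 * H + h + h) := by
    intro n hn
    simp only [hG] at hn
    simp only [zero_add]
    split_ifs at hn with h1 h2
    · exact Or.inr h1
    · exact Or.inl h2
    · exact absurd rfl hn
  have hfreeG : ∀ n m : ℤ, G n ≠ 0 → G m ≠ 0 → 2 * (H : ℤ) + 1 < n - m →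
      ∀ x : ℕ, 1 ≤ x → n - m ≠ f.eval (x : ℤ) := by
    intro n m hn hm hnm x hx
    have wn := hwin n hn
    have wm := hwin m hm
    simp only [zero_add] at wn wm
    have n1 : n ∈ Ioc (3 * (H : ℤ) + h) (3 * H + h + h) := by
      rcases wn with wn | wn
      · exfalso
        rw [Finset.mem_Ioc] at wn
        rcases wm with wm | wm
        · rw [Finset.mem_Ioc] at wm; omega
        · rw [Finset.mem_Ioc] at wm; omega
      · exact wn
    have m1 : m ∉ Ioc (3 * (H : ℤ) + h) (3 * H + h + h) := by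
      intro hmm
      rw [Finset.mem_Ioc] at hmm n1
      omega
    have m2 : m ∈ Ioc (0 : ℤ) h := by
      rcases wm with wm | wm
      · exact wm
      · exact absurd wm m1
    have gn : g1 (n + z) ≠ 0 := by
      intro h0
      apply hn
      simp only [hG]
      rw [if_pos n1, h0, mul_zero]
    have gm : g2 (m + z) ≠ 0 := by
      intro h0
      apply hm
      simp only [hG]
      rw [if_neg m1, if_pos m2, h0, mul_zero]
    have key := hfree (n + z) (by rw [Finset.mem_Ioc] at n1 ⊢; omega) (m + z)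
      (by rw [Finset.mem_Ioc] at m2 ⊢; omega) gn gm x hx
    intro h0
    apply key
    rw [← h0]
    ring
  have hsum : ∑ n ∈ Icc (1 : ℤ) N', G n ^ 2 = 2 := by
    have e1 : ∀ n ∈ Icc (1 : ℤ) N', G n ^ 2 =
        (if n ∈ Ioc (3 * (H : ℤ) + h) (3 * H + h + h) then (α * g1 (n + z)) ^ 2 else 0) +
        (if n ∈ Ioc (0 : ℤ) h then (β * g2 (n + z)) ^ 2 else 0) := by
      intro n _
      simp only [hG]
      by_cases h1 : n ∈ Ioc (3 * (H : ℤ) + h) (3 * H + h + h)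
      · have h2 : n ∉ Ioc (0 : ℤ) h := by
          intro h2
          rw [Finset.mem_Ioc] at h1 h2
          omega
        rw [if_pos h1, if_pos h1, if_neg h2, add_zero]
      · rw [if_neg h1, if_neg h1, zero_add]
        by_cases h2 : n ∈ Ioc (0 : ℤ) h
        · rw [if_pos h2, if_pos h2]
        · rw [if_neg h2, if_neg h2]
          ring
    rw [Finset.sum_congr rfl e1, Finset.sum_add_distrib, ← Finset.sum_filter,
      ← Finset.sum_filter]
    have e2 : ∑ n ∈ (Icc (1 : ℤ) N').filter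
        (fun n => n ∈ Ioc (3 * (H : ℤ) + h) (3 * H + h + h)), (α * g1 (n + z)) ^ 2 =
        α ^ 2 * A := by
      rw [hA, Finset.mul_sum]
      apply Finset.sum_nbij' (fun n : ℤ => n + z) (fun n : ℤ => n - z)
      · intro n hn
        rw [Finset.mem_filter, Finset.mem_Ioc] at hn
        rw [Finset.mem_Ioc]
        omega
      · intro n hn
        rw [Finset.mem_Ioc] at hn
        rw [Finset.mem_filter, Finset.mem_Ioc, Finset.mem_Icc]
        constructor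
        · constructor <;> push_cast [hN'] <;> omega
        · omega
      · intro n _
        omega
      · intro n _
        omega
      · intro n _
        ring
    have e3 : ∑ n ∈ (Icc (1 : ℤ) N').filter (fun n => n ∈ Ioc (0 : ℤ) h),
        (β * g2 (n + z)) ^ 2 = β ^ 2 * B := by
      rw [hB, Finset.mul_sum]
      apply Finset.sum_nbij' (fun n : ℤ => n + z) (fun n : ℤ => n - z)
      · intro n hn
        rw [Finset.mem_filter, Finset.mem_Ioc] at hn
        rw [Finset.mem_Ioc]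
        omega
      · intro n hn
        rw [Finset.mem_Ioc] at hn
        rw [Finset.mem_filter, Finset.mem_Ioc, Finset.mem_Icc]
        constructor
        · constructor <;> push_cast [hN'] <;> omega
        · omega
      · intro n _
        omega
      · intro n _
        omega
      · intro n _
        ring
    rw [e2, e3, hα, hβ, div_pow, div_pow, Real.sq_sqrt hA0, Real.sq_sqrt hB0, one_pow]
    field_simp
    norm_num
  have b1 := fou_signed f N' H Q x0 X δ G hH (by omega) hx0 hδ hsupp hfreeG hpt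
  have b2 := fou_signed f N' (H + h) Q x0' X' δ G (by omega) (by omega) hx0' hδ hsupp
    (fun n m hn hm hnm => hfreeG n m hn hm (by push_cast at hnm; omega)) hpt'
  rw [hsum] at b1 b2
  have b3 := two_window_bound (G := G) (N' := N') (H := H) (h := h) (z := 0) hsupp (by omega) hh hH
    hwin (Icc 1 Q) (fun a q => Gam f a q) b1 b2
  -- identify the windowed sums
  have f1 : ∀ θ : ℝ, Fw G ((0 : ℤ) + 3 * H + h) h θ =
      (α : ℂ) * Fw (fun n => g1 (n + z)) (3 * H + h) h θ := by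
    intro θ
    unfold Fw
    rw [Finset.mul_sum]
    simp only [zero_add]
    refine Finset.sum_congr rfl fun n hn => ?_
    simp only [hG]
    rw [if_pos hn]
    push_cast
    ring
  have f2 : ∀ θ : ℝ, Fw G (0 : ℤ) h θ = (β : ℂ) * Fw (fun n => g2 (n + z)) 0 h θ := by
    intro θ
    unfold Fw
    rw [Finset.mul_sum]
    refine Finset.sum_congr rfl fun n hn => ?_
    simp only [zero_add] at hn
    have h1 : n ∉ Ioc (3 * (H : ℤ) + h) (3 * H + h + h) := by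
      intro h2
      rw [Finset.mem_Ioc] at hn h2
      omega
    simp only [hG]
    rw [if_neg h1, if_pos hn]
    push_cast
    ring
  have f3 : ∀ θ : ℝ, Fw G ((0 : ℤ) + 3 * H + h) h θ * (starRingEnd ℂ) (Fw G (0 : ℤ) h θ) =
      ((α * β : ℝ) : ℂ) * (Fw g1 (z + 3 * H + h) h θ * (starRingEnd ℂ) (Fw g2 z h θ)) := by
    intro θ
    have h1 := pair_shift g1 g2 z (3 * H + h) 0 h θ
    rw [add_zero] at h1
    have h2 : z + (3 * (H : ℤ) + h) = z + 3 * H + h := by ring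
    rw [h2] at h1
    rw [h1, f1, f2, map_mul, Complex.conj_ofReal]
    push_cast
    ring
  have f4 : ∑ q ∈ Icc 1 Q, ∑ a ∈ (range q).filter (Nat.Coprime q),
      Gam f a q * (Fw G ((0 : ℤ) + 3 * H + h) h ((a : ℝ) / q) *
        (starRingEnd ℂ) (Fw G (0 : ℤ) h ((a : ℝ) / q))) =
      ((α * β : ℝ) : ℂ) * ∑ q ∈ Icc 1 Q, ∑ a ∈ (range q).filter (Nat.Coprime q),
        Gam f a q * (Fw g1 (z + 3 * H + h) h ((a : ℝ) / q) *
        (starRingEnd ℂ) (Fw g2 z h ((a : ℝ) / q))) := by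
    rw [Finset.mul_sum]
    refine Finset.sum_congr rfl fun q _ => ?_
    rw [Finset.mul_sum]
    refine Finset.sum_congr rfl fun a _ => ?_
    rw [f3]
    ring
  rw [f4, norm_mul, Complex.norm_real, Real.norm_eq_abs,
    abs_of_pos (mul_pos hα0 hβ0)] at b3
  set W := ‖∑ q ∈ Icc 1 Q, ∑ a ∈ (range q).filter (Nat.Coprime q),
      Gam f a q * (Fw g1 (z + 3 * H + h) h ((a : ℝ) / q) *
        (starRingEnd ℂ) (Fw g2 z h ((a : ℝ) / q)))‖ with hW
  have hHr : (0 : ℝ) < H := by exact_mod_cast hH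
  have hhr : 3 * (h : ℝ) ≤ H := by exact_mod_cast hh
  have hh0 : (0 : ℝ) ≤ h := by positivity
  have b4 : δ * (H : ℝ) ^ 2 * 2 + δ * ((H + h : ℕ) : ℝ) ^ 2 * 2 ≤ 6 * δ * (H : ℝ) ^ 2 := by
    have h1 : ((H + h : ℕ) : ℝ) ^ 2 ≤ 2 * (H : ℝ) ^ 2 := by
      push_cast
      nlinarith only [hHr, hhr, hh0]
    nlinarith only [mul_le_mul_of_nonneg_left h1 hδ]
  have b5 : (H : ℝ) * (α * β * W) ≤ 6 * δ * (H : ℝ) ^ 2 := b3.trans b4
  have b6 : α * β * W ≤ 6 * δ * H := by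
    have h1 : (H : ℝ) * (α * β * W) ≤ H * (6 * δ * H) := by nlinarith only [b5]
    exact le_of_mul_le_mul_left h1 hHr
  have b7 : W = (α * β * W) * (Real.sqrt A * Real.sqrt B) := by
    rw [hα, hβ]
    field_simp
  rw [b7]
  exact mul_le_mul_of_nonneg_right b6 (by positivity)

/-- the circle method for one pair of windows, uniform in the polynomial -/
def AN1Stmt : Prop :=
  ∀ k : ℕ, 2 ≤ k → ∃ E : ℕ, 1 ≤ E ∧ ∀ R : ℕ, 1 ≤ R → ∃ K : ℕ, 1 ≤ K ∧
  ∀ (f : ℤ[X]) (H h Q : ℕ) (δ B : ℝ) (z : ℤ) (g1 g2 : ℤ → ℝ),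
    f.natDegree = k → 0 < f.leadingCoeff →
    (∀ g : ℤ, (∀ j : ℕ, 1 ≤ j → g ∣ f.coeff j) → g ∣ (R : ℤ)) →
    0 < δ → δ ≤ 1 → 1 ≤ B → (∀ j : ℕ, |(f.coeff j : ℝ)| ≤ B) →
    1 ≤ H → 3 * h ≤ H → (K / δ) ^ E ≤ (Q : ℝ) → (K * B * Q / δ) ^ E ≤ (H : ℝ) →
    (∀ n ∈ Ioc (z + 3 * H + h) (z + 3 * H + h + h), ∀ m ∈ Ioc z (z + h),
      g1 n ≠ 0 → g2 m ≠ 0 → ∀ x : ℕ, 1 ≤ x → n - m ≠ f.eval (x : ℤ)) →
    ‖∑ q ∈ Icc 1 Q, ∑ a ∈ (range q).filter (Nat.Coprime q),
      Gam f a q * (Fw g1 (z + 3 * H + h) h ((a : ℝ) / q) *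
        (starRingEnd ℂ) (Fw g2 z h ((a : ℝ) / q)))‖ ≤
      6 * δ * H * (Real.sqrt (∑ n ∈ Ioc (z + 3 * H + h) (z + 3 * H + h + h), g1 n ^ 2) *
        Real.sqrt (∑ m ∈ Ioc z (z + h), g2 m ^ 2))

theorem an1_holds : AN1Stmt := by
  intro k hk
  obtain ⟨E, hE, hP⟩ := point_holds k hk
  refine ⟨E, hE, fun R hR => ?_⟩
  obtain ⟨K, hK, hP⟩ := hP R hR
  refine ⟨K, hK, ?_⟩
  intro f H h Q δ B z g1 g2 hdeg hlead hcont hδ hδ1 hB hcoef hH hh hQ hHK hfree
  have hHK' : ((K : ℝ) * B * Q / δ) ^ E ≤ ((H + h : ℕ) : ℝ) := by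
    refine hHK.trans ?_
    push_cast
    have : (0 : ℝ) ≤ h := by positivity
    linarith
  obtain ⟨x0, X, hx0, hpt⟩ := hP f H Q δ B hdeg hlead hcont hδ hδ1 hB hcoef hQ hHK
  obtain ⟨x0', X', hx0', hpt'⟩ := hP f (H + h) Q δ B hdeg hlead hcont hδ hδ1 hB hcoef hQ hHK'
  exact pair_of_point f H h Q x0 X x0' X' δ z g1 g2 hH hh hx0 hx0' hδ.le hfree hpt hpt'

end Vale.Agent.P042.H359
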