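import Vale.Agent.P042.H74.AnX
import Vale.Agent.P042.H359.TwoTent

set_option autoImplicit false

/-!
From bounds of the landed bilinear sums for nonnegative weights to ONE pair of windows and SIGNED
functions; application to the circle method with sieve weights.
-/

namespace Vale.Agent.P042.H359

open Polynomial Finset Vale.Agent.P042.SS

section pair

variable {N' H h : ℕ} {z : ℤ}

/-- the upper window -/
noncomputable def I1 (z : ℤ) (H h : ℕ) : Finset ℤ := Ioc (z + 3 * H + h) (z + 3 * H + h + h)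

/-- the lower window -/
noncomputable def I2 (z : ℤ) (h : ℕ) : Finset ℤ := Ioc z (z + h)

/-- the pair sum -/
noncomputable def PS (Qs : Finset ℕ) (c : ℕ → ℕ → ℂ) (z : ℤ) (H h : ℕ) (g1 g2 : ℤ → ℝ) : ℂ :=
  ∑ q ∈ Qs, ∑ a ∈ (range q).filter (Nat.Coprime q),
    c a q * (Fw g1 (z + 3 * H + h) h ((a : ℝ) / q) *
      (starRingEnd ℂ) (Fw g2 z h ((a : ℝ) / q)))

theorem Fw_sub (g g' : ℤ → ℝ) (y : ℤ) (M : ℕ) (θ : ℝ) :
    Fw (fun n => g n - g' n) y M θ = Fw g y M θ - Fw g' y M θ := by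
  unfold Fw
  rw [← Finset.sum_sub_distrib]
  refine Finset.sum_congr rfl fun n _ => ?_
  push_cast
  ring

theorem PS_sub_left (Qs : Finset ℕ) (c : ℕ → ℕ → ℂ) (z : ℤ) (H h : ℕ) (g g' g2 : ℤ → ℝ) :
    PS Qs c z H h (fun n => g n - g' n) g2 = PS Qs c z H h g g2 - PS Qs c z H h g' g2 := by
  unfold PS
  rw [← Finset.sum_sub_distrib]
  refine Finset.sum_congr rfl fun q _ => ?_
  rw [← Finset.sum_sub_distrib]
  refine Finset.sum_congr rfl fun a _ => ?_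
  rw [Fw_sub]
  ring

theorem PS_sub_right (Qs : Finset ℕ) (c : ℕ → ℕ → ℂ) (z : ℤ) (H h : ℕ) (g1 g g' : ℤ → ℝ) :
    PS Qs c z H h g1 (fun n => g n - g' n) = PS Qs c z H h g1 g - PS Qs c z H h g1 g' := by
  unfold PS
  rw [← Finset.sum_sub_distrib]
  refine Finset.sum_congr rfl fun q _ => ?_
  rw [← Finset.sum_sub_distrib]
  refine Finset.sum_congr rfl fun a _ => ?_
  rw [Fw_sub, map_sub]
  ring

/-- nonnegative functions -/
theorem pair_nonneg (hz : 0 ≤ z) (hzN : z + 3 * H + 2 * h ≤ N') (hHN : 2 * (H + h) ≤ N')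
    (hh : 3 * h ≤ H) (hH : 1 ≤ H) (Qs : Finset ℕ) (c : ℕ → ℕ → ℂ) (b : ℝ) (hb : 0 ≤ b)
    (s : ℤ → Prop)
    (h1 : ∀ G : ℤ → ℝ, (∀ n, 0 ≤ G n) → (∀ n, G n ≠ 0 → 1 ≤ n ∧ n ≤ (N' : ℤ)) →
      (∀ n, G n ≠ 0 → s n) →
      ‖∑ q ∈ Qs, ∑ a ∈ (range q).filter (Nat.Coprime q), c a q * Bil G N' H ((a : ℝ) / q)‖ ≤
        b * ∑ n ∈ Icc (1 : ℤ) N', G n ^ 2)
    (h2 : ∀ G : ℤ → ℝ, (∀ n, 0 ≤ G n) → (∀ n, G n ≠ 0 → 1 ≤ n ∧ n ≤ (N' : ℤ)) →
      (∀ n, G n ≠ 0 → s n) →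
      ‖∑ q ∈ Qs, ∑ a ∈ (range q).filter (Nat.Coprime q),
        c a q * Bil G N' (H + h) ((a : ℝ) / q)‖ ≤ b * ∑ n ∈ Icc (1 : ℤ) N', G n ^ 2)
    (g1 g2 : ℤ → ℝ) (hg1 : ∀ n, 0 ≤ g1 n) (hg2 : ∀ n, 0 ≤ g2 n) (hs1 : ∀ n, g1 n ≠ 0 → s n)
    (hs2 : ∀ n, g2 n ≠ 0 → s n) :
    (H : ℝ) * ‖PS Qs c z H h g1 g2‖ ≤
      4 * b * (Real.sqrt (∑ n ∈ I1 z H h, g1 n ^ 2) * Real.sqrt (∑ m ∈ I2 z h, g2 m ^ 2)) := by
  unfold I1 I2 PS
  set A : ℝ := ∑ n ∈ Ioc (z + 3 * H + h) (z + 3 * H + h + h), g1 n ^ 2 with hA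
  set B : ℝ := ∑ m ∈ Ioc z (z + h), g2 m ^ 2 with hB
  have hA0 : 0 ≤ A := Finset.sum_nonneg fun _ _ => sq_nonneg _
  have hB0 : 0 ≤ B := Finset.sum_nonneg fun _ _ => sq_nonneg _
  have hRHS : 0 ≤ 4 * b * (Real.sqrt A * Real.sqrt B) := by positivity
  rcases hA0.eq_or_lt with hA1 | hA1
  · have hz : ∀ θ : ℝ, Fw g1 (z + 3 * H + h) h θ = 0 := by
      intro θ
      unfold Fw
      apply Finset.sum_eq_zero
      intro n hn
      have h1 := (Finset.sum_eq_zero_iff_of_nonneg (fun _ _ => sq_nonneg _)).1 hA1.symm n hn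
      rw [pow_eq_zero_iff (by norm_num)] at h1
      rw [h1]
      simp
    simp only [hz, zero_mul, mul_zero, Finset.sum_const_zero, norm_zero]
    exact hRHS
  rcases hB0.eq_or_lt with hB1 | hB1
  · have hz : ∀ θ : ℝ, Fw g2 z h θ = 0 := by
      intro θ
      unfold Fw
      apply Finset.sum_eq_zero
      intro n hn
      have h1 := (Finset.sum_eq_zero_iff_of_nonneg (fun _ _ => sq_nonneg _)).1 hB1.symm n hn
      rw [pow_eq_zero_iff (by norm_num)] at h1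
      rw [h1]
      simp
    simp only [hz, map_zero, mul_zero, Finset.sum_const_zero, norm_zero]
    exact hRHS
  set α : ℝ := 1 / Real.sqrt A with hα
  set β : ℝ := 1 / Real.sqrt B with hβ
  have hsA : 0 < Real.sqrt A := Real.sqrt_pos.2 hA1
  have hsB : 0 < Real.sqrt B := Real.sqrt_pos.2 hB1
  have hα0 : 0 < α := by positivity
  have hβ0 : 0 < β := by positivity
  set G : ℤ → ℝ := fun n =>
    if n ∈ Ioc (z + 3 * (H : ℤ) + h) (z + 3 * H + h + h) then α * g1 n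
    else if n ∈ Ioc z (z + h) then β * g2 n else 0 with hG
  have hG0 : ∀ n, 0 ≤ G n := by
    intro n
    simp only [hG]
    split_ifs
    · exact mul_nonneg hα0.le (hg1 n)
    · exact mul_nonneg hβ0.le (hg2 n)
    · exact le_rfl
  have hsupp : ∀ n, G n ≠ 0 → 1 ≤ n ∧ n ≤ (N' : ℤ) := by
    intro n hn
    simp only [hG] at hn
    split_ifs at hn with h1 h2
    · rw [Finset.mem_Ioc] at h1
      constructor <;> omega
    · rw [Finset.mem_Ioc] at h2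
      constructor <;> omega
    · exact absurd rfl hn
  have hwin : ∀ n, G n ≠ 0 → n ∈ Ioc z (z + h) ∨
      n ∈ Ioc (z + 3 * H + h) (z + 3 * H + h + h) := by
    intro n hn
    simp only [hG] at hn
    split_ifs at hn with h1 h2
    · exact Or.inr h1
    · exact Or.inl h2
    · exact absurd rfl hn
  have hGs : ∀ n, G n ≠ 0 → s n := by
    intro n hn
    simp only [hG] at hn
    split_ifs at hn with h1 h2
    · exact hs1 n (right_ne_zero_of_mul hn)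
    · exact hs2 n (right_ne_zero_of_mul hn)
    · exact absurd rfl hn
  have hsum : ∑ n ∈ Icc (1 : ℤ) N', G n ^ 2 = 2 := by
    have e1 : ∀ n ∈ Icc (1 : ℤ) N', G n ^ 2 =
        (if n ∈ Ioc (z + 3 * (H : ℤ) + h) (z + 3 * H + h + h) then (α * g1 n) ^ 2 else 0) +
        (if n ∈ Ioc z (z + h) then (β * g2 n) ^ 2 else 0) := by
      intro n _
      simp only [hG]
      by_cases h1 : n ∈ Ioc (z + 3 * (H : ℤ) + h) (z + 3 * H + h + h)
      · have h2 : n ∉ Ioc z (z + h) := by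
          intro h2
          rw [Finset.mem_Ioc] at h1 h2
          omega
        rw [if_pos h1, if_pos h1, if_neg h2, add_zero]
      · rw [if_neg h1, if_neg h1, zero_add]
        by_cases h2 : n ∈ Ioc z (z + h)
        · rw [if_pos h2, if_pos h2]
        · rw [if_neg h2, if_neg h2]
          ring
    rw [Finset.sum_congr rfl e1, Finset.sum_add_distrib, ← Finset.sum_filter,
      ← Finset.sum_filter]
    have e2 : (Icc (1 : ℤ) N').filter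
        (fun n => n ∈ Ioc (z + 3 * (H : ℤ) + h) (z + 3 * H + h + h)) =
        Ioc (z + 3 * (H : ℤ) + h) (z + 3 * H + h + h) := by
      ext n
      rw [Finset.mem_filter, Finset.mem_Icc, Finset.mem_Ioc]
      omega
    have e3 : (Icc (1 : ℤ) N').filter (fun n => n ∈ Ioc z (z + h)) = Ioc z (z + h) := by
      ext n
      rw [Finset.mem_filter, Finset.mem_Icc, Finset.mem_Ioc]
      omega
    have e4 : ∑ n ∈ Ioc (z + 3 * (H : ℤ) + h) (z + 3 * H + h + h), (α * g1 n) ^ 2 = α ^ 2 * A := by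
      rw [hA, Finset.mul_sum]
      refine Finset.sum_congr rfl fun n _ => ?_
      ring
    have e5 : ∑ n ∈ Ioc z (z + h), (β * g2 n) ^ 2 = β ^ 2 * B := by
      rw [hB, Finset.mul_sum]
      refine Finset.sum_congr rfl fun n _ => ?_
      ring
    rw [e2, e3, e4, e5, hα, hβ, div_pow, div_pow, Real.sq_sqrt hA0, Real.sq_sqrt hB0, one_pow]
    field_simp
    norm_num
  have b1 := h1 G hG0 hsupp hGs
  have b2 := h2 G hG0 hsupp hGs
  rw [hsum] at b1 b2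
  have b3 := two_window_bound (G := G) (N' := N') (H := H) (h := h) (z := z) hsupp hHN hh hH
    hwin Qs c b1 b2
  have f1 : ∀ θ : ℝ, Fw G (z + 3 * H + h) h θ = (α : ℂ) * Fw g1 (z + 3 * H + h) h θ := by
    intro θ
    unfold Fw
    rw [Finset.mul_sum]
    refine Finset.sum_congr rfl fun n hn => ?_
    simp only [hG]
    rw [if_pos hn]
    push_cast
    ring
  have f2 : ∀ θ : ℝ, Fw G z h θ = (β : ℂ) * Fw g2 z h θ := by
    intro θ
    unfold Fw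
    rw [Finset.mul_sum]
    refine Finset.sum_congr rfl fun n hn => ?_
    have h1 : n ∉ Ioc (z + 3 * (H : ℤ) + h) (z + 3 * H + h + h) := by
      intro h2
      rw [Finset.mem_Ioc] at hn h2
      omega
    simp only [hG]
    rw [if_neg h1, if_pos hn]
    push_cast
    ring
  have f4 : ∑ q ∈ Qs, ∑ a ∈ (range q).filter (Nat.Coprime q),
      c a q * (Fw G (z + 3 * H + h) h ((a : ℝ) / q) *
        (starRingEnd ℂ) (Fw G z h ((a : ℝ) / q))) =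
      ((α * β : ℝ) : ℂ) * ∑ q ∈ Qs, ∑ a ∈ (range q).filter (Nat.Coprime q),
        c a q * (Fw g1 (z + 3 * H + h) h ((a : ℝ) / q) *
        (starRingEnd ℂ) (Fw g2 z h ((a : ℝ) / q))) := by
    rw [Finset.mul_sum]
    refine Finset.sum_congr rfl fun q _ => ?_
    rw [Finset.mul_sum]
    refine Finset.sum_congr rfl fun a _ => ?_
    rw [f1, f2, map_mul, Complex.conj_ofReal]
    push_cast
    ring
  rw [f4, norm_mul, Complex.norm_real, Real.norm_eq_abs,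
    abs_of_pos (mul_pos hα0 hβ0)] at b3
  set W := ‖∑ q ∈ Qs, ∑ a ∈ (range q).filter (Nat.Coprime q),
      c a q * (Fw g1 (z + 3 * H + h) h ((a : ℝ) / q) *
        (starRingEnd ℂ) (Fw g2 z h ((a : ℝ) / q)))‖ with hW
  have b5 : α * β * ((H : ℝ) * W) ≤ 4 * b := by linarith only [b3]
  have b7 : (H : ℝ) * W = (α * β * ((H : ℝ) * W)) * (Real.sqrt A * Real.sqrt B) := by
    rw [hα, hβ]
    field_simp
  rw [b7]
  exact mul_le_mul_of_nonneg_right b5 (by positivity)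

theorem pos_sq_le (x : ℝ) : (max x 0) ^ 2 ≤ x ^ 2 := by
  rcases le_total x 0 with hx | hx
  · rw [max_eq_right hx]
    nlinarith only [sq_nonneg x]
  · rw [max_eq_left hx]

theorem neg_sq_le (x : ℝ) : (max (-x) 0) ^ 2 ≤ x ^ 2 := by
  have := pos_sq_le (-x)
  nlinarith only [this]

theorem pos_sub_neg (x : ℝ) : max x 0 - max (-x) 0 = x := by
  rcases le_total x 0 with hx | hx
  · rw [max_eq_right hx, max_eq_left (by linarith)]
    ring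
  · rw [max_eq_left hx, max_eq_right (by linarith)]
    ring

/-- **signed functions on one pair of windows** -/
theorem pair_of_bil (hz : 0 ≤ z) (hzN : z + 3 * H + 2 * h ≤ N') (hHN : 2 * (H + h) ≤ N')
    (hh : 3 * h ≤ H) (hH : 1 ≤ H) (Qs : Finset ℕ) (c : ℕ → ℕ → ℂ) (b : ℝ) (hb : 0 ≤ b)
    (s : ℤ → Prop)
    (h1 : ∀ G : ℤ → ℝ, (∀ n, 0 ≤ G n) → (∀ n, G n ≠ 0 → 1 ≤ n ∧ n ≤ (N' : ℤ)) →
      (∀ n, G n ≠ 0 → s n) →
      ‖∑ q ∈ Qs, ∑ a ∈ (range q).filter (Nat.Coprime q), c a q * Bil G N' H ((a : ℝ) / q)‖ ≤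
        b * ∑ n ∈ Icc (1 : ℤ) N', G n ^ 2)
    (h2 : ∀ G : ℤ → ℝ, (∀ n, 0 ≤ G n) → (∀ n, G n ≠ 0 → 1 ≤ n ∧ n ≤ (N' : ℤ)) →
      (∀ n, G n ≠ 0 → s n) →
      ‖∑ q ∈ Qs, ∑ a ∈ (range q).filter (Nat.Coprime q),
        c a q * Bil G N' (H + h) ((a : ℝ) / q)‖ ≤ b * ∑ n ∈ Icc (1 : ℤ) N', G n ^ 2)
    (g1 g2 : ℤ → ℝ) (hs1 : ∀ n, g1 n ≠ 0 → s n) (hs2 : ∀ n, g2 n ≠ 0 → s n) :
    (H : ℝ) * ‖∑ q ∈ Qs, ∑ a ∈ (range q).filter (Nat.Coprime q),
      c a q * (Fw g1 (z + 3 * H + h) h ((a : ℝ) / q) *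
        (starRingEnd ℂ) (Fw g2 z h ((a : ℝ) / q)))‖ ≤
      16 * b * (Real.sqrt (∑ n ∈ Ioc (z + 3 * H + h) (z + 3 * H + h + h), g1 n ^ 2) *
        Real.sqrt (∑ m ∈ Ioc z (z + h), g2 m ^ 2)) := by
  have hp : ∀ (g : ℤ → ℝ), (∀ n, g n ≠ 0 → s n) → ∀ n, max (g n) 0 ≠ 0 → s n := by
    intro g hg n hn
    apply hg
    intro h0
    apply hn
    rw [h0, max_self]
  have hm : ∀ (g : ℤ → ℝ), (∀ n, g n ≠ 0 → s n) → ∀ n, max (-g n) 0 ≠ 0 → s n := by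
    intro g hg n hn
    apply hg
    intro h0
    apply hn
    rw [h0, neg_zero, max_self]
  have hn1 : ∀ (g : ℤ → ℝ) n, 0 ≤ max (g n) 0 := fun g n => le_max_right _ _
  have hn2 : ∀ (g : ℤ → ℝ) n, 0 ≤ max (-g n) 0 := fun g n => le_max_right _ _
  have key := pair_nonneg hz hzN hHN hh hH Qs c b hb s h1 h2
  have k1 := key (fun n => max (g1 n) 0) (fun n => max (g2 n) 0) (hn1 g1) (hn1 g2)
    (hp g1 hs1) (hp g2 hs2)
  have k2 := key (fun n => max (g1 n) 0) (fun n => max (-g2 n) 0) (hn1 g1) (hn2 g2)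
    (hp g1 hs1) (hm g2 hs2)
  have k3 := key (fun n => max (-g1 n) 0) (fun n => max (g2 n) 0) (hn2 g1) (hn1 g2)
    (hm g1 hs1) (hp g2 hs2)
  have k4 := key (fun n => max (-g1 n) 0) (fun n => max (-g2 n) 0) (hn2 g1) (hn2 g2)
    (hm g1 hs1) (hm g2 hs2)
  have a1 : Real.sqrt (∑ n ∈ I1 z H h, (max (g1 n) 0) ^ 2) ≤
      Real.sqrt (∑ n ∈ I1 z H h, g1 n ^ 2) :=
    Real.sqrt_le_sqrt (Finset.sum_le_sum fun n _ => pos_sq_le _)
  have a2 : Real.sqrt (∑ n ∈ I1 z H h, (max (-g1 n) 0) ^ 2) ≤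
      Real.sqrt (∑ n ∈ I1 z H h, g1 n ^ 2) :=
    Real.sqrt_le_sqrt (Finset.sum_le_sum fun n _ => neg_sq_le _)
  have a3 : Real.sqrt (∑ n ∈ I2 z h, (max (g2 n) 0) ^ 2) ≤
      Real.sqrt (∑ n ∈ I2 z h, g2 n ^ 2) :=
    Real.sqrt_le_sqrt (Finset.sum_le_sum fun n _ => pos_sq_le _)
  have a4 : Real.sqrt (∑ n ∈ I2 z h, (max (-g2 n) 0) ^ 2) ≤
      Real.sqrt (∑ n ∈ I2 z h, g2 n ^ 2) :=
    Real.sqrt_le_sqrt (Finset.sum_le_sum fun n _ => neg_sq_le _)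
  set SA := Real.sqrt (∑ n ∈ I1 z H h, g1 n ^ 2) with hSA
  set SB := Real.sqrt (∑ n ∈ I2 z h, g2 n ^ 2) with hSB
  have m1 : ∀ x y : ℝ, 0 ≤ y → x ≤ SA → y ≤ SB → 4 * b * (x * y) ≤ 4 * b * (SA * SB) := by
    intro x y hy hx hy'
    apply mul_le_mul_of_nonneg_left _ (by positivity)
    exact mul_le_mul hx hy' hy (Real.sqrt_nonneg _)
  have k1' := k1.trans (m1 _ _ (Real.sqrt_nonneg _) a1 a3)
  have k2' := k2.trans (m1 _ _ (Real.sqrt_nonneg _) a1 a4)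
  have k3' := k3.trans (m1 _ _ (Real.sqrt_nonneg _) a2 a3)
  have k4' := k4.trans (m1 _ _ (Real.sqrt_nonneg _) a2 a4)
  have e1 : PS Qs c z H h g1 g2 =
      (PS Qs c z H h (fun n => max (g1 n) 0) (fun n => max (g2 n) 0) -
        PS Qs c z H h (fun n => max (g1 n) 0) (fun n => max (-g2 n) 0)) -
      (PS Qs c z H h (fun n => max (-g1 n) 0) (fun n => max (g2 n) 0) -
        PS Qs c z H h (fun n => max (-g1 n) 0) (fun n => max (-g2 n) 0)) := by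
    rw [← PS_sub_right, ← PS_sub_right, ← PS_sub_left]
    congr 1
    · funext n
      exact (pos_sub_neg _).symm
    · funext n
      exact (pos_sub_neg _).symm
  have e2 : ‖PS Qs c z H h g1 g2‖ ≤
      (‖PS Qs c z H h (fun n => max (g1 n) 0) (fun n => max (g2 n) 0)‖ +
        ‖PS Qs c z H h (fun n => max (g1 n) 0) (fun n => max (-g2 n) 0)‖) +
      (‖PS Qs c z H h (fun n => max (-g1 n) 0) (fun n => max (g2 n) 0)‖ +
        ‖PS Qs c z H h (fun n => max (-g1 n) 0) (fun n => max (-g2 n) 0)‖) := by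
    rw [e1]
    exact (norm_sub_le _ _).trans (add_le_add (norm_sub_le _ _) (norm_sub_le _ _))
  have hH0 : (0 : ℝ) ≤ H := by positivity
  have e3 := mul_le_mul_of_nonneg_left e2 hH0
  have e4 : (H : ℝ) * ‖PS Qs c z H h g1 g2‖ ≤ 16 * b * (SA * SB) := by
    refine e3.trans ?_
    rw [mul_add, mul_add, mul_add]
    calc _ ≤ (4 * b * (SA * SB) + 4 * b * (SA * SB)) +
          (4 * b * (SA * SB) + 4 * b * (SA * SB)) :=
          add_le_add (add_le_add k1' k2') (add_le_add k3' k4')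
      _ = _ := by ring
  exact e4

end pair

open Vale.Agent.P042.H74 in
/-- **the circle method with sieve weights for one pair of windows and signed functions** -/
theorem anW_pair (k : ℕ) (hk : 2 ≤ k) : ∃ E C : ℕ, 1 ≤ E ∧ 1 ≤ C ∧ ∀ R : ℕ, 1 ≤ R →
    ∀ (f : ℤ[X]) (PP : Finset ℕ) (N' H h Q E0 : ℕ) (δ B : ℝ) (z : ℤ) (s : ℤ → Prop)
    (g1 g2 : ℤ → ℝ),
    f.natDegree = k → 0 < f.leadingCoeff →
    (∀ g : ℤ, (∀ j : ℕ, 1 ≤ j → g ∣ f.coeff j) → g ∣ (R : ℤ)) →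
    0 < δ → δ ≤ 1 → 1 ≤ B → (∀ j : ℕ, |(f.coeff j : ℝ)| ≤ B) → (∀ p ∈ PP, p.Prime) →
    1 ≤ E0 → 1 ≤ H → 3 * h ≤ H → 8 * (H + h) ≤ N' → N' ≤ 16 * H →
    (C * R * (E0 : ℝ) ^ k / δ) ^ E ≤ (Q : ℝ) →
    (C * R * (E0 : ℝ) ^ (3 * k) * B * Q / δ) ^ E ≤ (N' : ℝ) → (Q : ℝ) ^ 4 ≤ H →
    0 ≤ z → z + 3 * H + 2 * h ≤ N' →
    (∀ n m : ℤ, s n → s m → ∀ x : ℕ, 1 ≤ x → n - m = f.eval (x : ℤ) → n = m) →
    (∀ n, g1 n ≠ 0 → s n) → (∀ n, g2 n ≠ 0 → s n) →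
    ‖∑ q ∈ Icc 1 Q, ∑ a ∈ (range q).filter (Nat.Coprime q),
      GamW f PP a q * (Fw g1 (z + 3 * H + h) h ((a : ℝ) / q) *
        (starRingEnd ℂ) (Fw g2 z h ((a : ℝ) / q)))‖ ≤
      (E0 * δ + 2 * ∑ S ∈ PP.powerset.filter (fun S => E0 < ∏ p ∈ S, p),
        ((ZS f S).card : ℝ) / ((∏ p ∈ S, p : ℕ) : ℝ)) * (32 * H *
        (Real.sqrt (∑ n ∈ Ioc (z + 3 * H + h) (z + 3 * H + h + h), g1 n ^ 2) *
          Real.sqrt (∑ m ∈ Ioc z (z + h), g2 m ^ 2))) := by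
  obtain ⟨E, C, hE, hC, hAN⟩ := an_W k hk
  refine ⟨E, C, hE, hC, fun R hR => ?_⟩
  intro f PP N' H h Q E0 δ B z s g1 g2 hdeg hlead hcont hδ hδ1 hB hcoef hPP hE0 hH hh h8 h16 hQ hN
    hQH hz hzN hfree hs1 hs2
  obtain ⟨X, hX⟩ : ∃ X : ℝ, X = E0 * δ + 2 * ∑ S ∈ PP.powerset.filter (fun S => E0 < ∏ p ∈ S, p),
        ((ZS f S).card : ℝ) / ((∏ p ∈ S, p : ℕ) : ℝ) := ⟨_, rfl⟩
  rw [← hX]
  have hX0 : 0 ≤ X := by
    rw [hX]
    exact add_nonneg (mul_nonneg (Nat.cast_nonneg _) hδ.le) (mul_nonneg (by norm_num)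
      (Finset.sum_nonneg fun _ _ => div_nonneg (Nat.cast_nonneg _) (Nat.cast_nonneg _)))
  have hHr : (1 : ℝ) ≤ H := by exact_mod_cast hH
  have hhr : 3 * (h : ℝ) ≤ H := by exact_mod_cast hh
  have hh0 : (0 : ℝ) ≤ h := by positivity
  have hsq : ((H + h : ℕ) : ℝ) ^ 2 ≤ 2 * (H : ℝ) ^ 2 := by
    push_cast
    nlinarith only [hHr, hhr, hh0]
  have hb : 0 ≤ X * (2 * (H : ℝ) ^ 2) := by positivity
  have h1 : ∀ G : ℤ → ℝ, (∀ n, 0 ≤ G n) → (∀ n, G n ≠ 0 → 1 ≤ n ∧ n ≤ (N' : ℤ)) →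
      (∀ n, G n ≠ 0 → s n) →
      ‖∑ q ∈ Icc 1 Q, ∑ a ∈ (range q).filter (Nat.Coprime q),
        GamW f PP a q * Bil G N' H ((a : ℝ) / q)‖ ≤
        X * (2 * (H : ℝ) ^ 2) * ∑ n ∈ Icc (1 : ℤ) N', G n ^ 2 := by
    intro G hG0 hGs hGf
    refine (hAN R hR f PP N' H Q E0 δ B G hdeg hlead hcont hδ hδ1 hB hcoef hPP hE0 (by omega) h16
      hQ hN hQH hG0 hGs (fun n m hn hm x hx hnm => hfree n m (hGf n hn) (hGf m hm) x hx hnm)).trans ?_
    rw [← hX]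
    have h3 : 0 ≤ ∑ n ∈ Icc (1 : ℤ) N', G n ^ 2 := Finset.sum_nonneg fun _ _ => sq_nonneg _
    have h4 : 0 ≤ X * ((H : ℝ) ^ 2 * ∑ n ∈ Icc (1 : ℤ) N', G n ^ 2) := by positivity
    nlinarith only [h4]
  have h2 : ∀ G : ℤ → ℝ, (∀ n, 0 ≤ G n) → (∀ n, G n ≠ 0 → 1 ≤ n ∧ n ≤ (N' : ℤ)) →
      (∀ n, G n ≠ 0 → s n) →
      ‖∑ q ∈ Icc 1 Q, ∑ a ∈ (range q).filter (Nat.Coprime q),
        GamW f PP a q * Bil G N' (H + h) ((a : ℝ) / q)‖ ≤
        X * (2 * (H : ℝ) ^ 2) * ∑ n ∈ Icc (1 : ℤ) N', G n ^ 2 := by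
    intro G hG0 hGs hGf
    refine (hAN R hR f PP N' (H + h) Q E0 δ B G hdeg hlead hcont hδ hδ1 hB hcoef hPP hE0 h8
      (by omega) hQ hN (hQH.trans (by push_cast; linarith)) hG0 hGs
      (fun n m hn hm x hx hnm => hfree n m (hGf n hn) (hGf m hm) x hx hnm)).trans ?_
    rw [← hX]
    have h3 : 0 ≤ ∑ n ∈ Icc (1 : ℤ) N', G n ^ 2 := Finset.sum_nonneg fun _ _ => sq_nonneg _
    have h4 : 0 ≤ X * ∑ n ∈ Icc (1 : ℤ) N', G n ^ 2 := by positivity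
    have h5 := mul_le_mul_of_nonneg_left hsq h4
    nlinarith only [h5]
  have key := pair_of_bil hz hzN (by omega) hh hH (Icc 1 Q) (fun a q => GamW f PP a q)
    (X * (2 * (H : ℝ) ^ 2)) hb s h1 h2 g1 g2 hs1 hs2
  have hH0 : (0 : ℝ) < H := by linarith
  apply le_of_mul_le_mul_left _ hH0
  refine key.trans (le_of_eq ?_)
  ring

end Vale.Agent.P042.H359
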