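import Vale.Agent.P042.H359.BridgeS

set_option autoImplicit false

/-!
Target S: the hypotheses of the local comparison for the laws of the cells of the state.
-/

namespace Vale.Agent.P042.H359

open Finset Vale.Agent.P042.H779 Vale.Agent.P042.H779.Ab Vale.Agent.P042.H599
  Vale.Agent.P042.H945

set_option linter.unusedSectionVars false

theorem etaS_exp (κ : ℝ) (C : ℕ) (l : ℝ) : etaS κ C (Real.exp l) = 6 / (κ * l ^ C) := by
  unfold etaS
  rw [Real.log_exp]

/-- numbers of the bridge -/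
structure BN (k : ℕ) (κ C2 : ℝ) (E C : ℕ) (l : ℝ) : Prop where
  l1 : 14 ≤ l
  hlk : 24 * k ≤ κ * l
  q8 : C2 * l ^ E ≤ Real.exp l / (8 * k)
  e1 : etaS κ C (Real.exp l) * (2 * k * (C2 * l ^ E) + 7) ≤ 1 / 20000
  e2 : etaS κ C (Real.exp l) * (4 * k * l + 7) ≤ 1 / (2 * l ^ 14)
  l4 : 2 * l ≤ Real.exp l / (4 * k)
  th : 6 ≤ Real.exp l / (400 * l)

theorem exists_BN (k : ℕ) (hk : 1 ≤ k) (κ C2 : ℝ) (hκ : 0 < κ) (hC2 : 0 ≤ C2) (E C : ℕ)
    (hE : E + 1 ≤ C) (hC : 18 ≤ C) : ∃ l0 : ℝ, ∀ l ≥ l0, BN k κ C2 E C l := by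
  have hk1 : (1 : ℝ) ≤ k := by exact_mod_cast hk
  rw [← Filter.eventually_atTop]
  filter_upwards [Filter.eventually_ge_atTop (14 : ℝ), Filter.eventually_ge_atTop (24 * k / κ),
    (Real.tendsto_exp_div_pow_atTop E).eventually_ge_atTop (8 * k * C2),
    Filter.eventually_ge_atTop (20000 * (6 * (2 * k * C2 + 7)) / κ),
    Filter.eventually_ge_atTop (2 * (6 * (4 * k + 7)) / κ),
    (Real.tendsto_exp_div_pow_atTop 1).eventually_ge_atTop (8 * k),
    (Real.tendsto_exp_div_pow_atTop 1).eventually_ge_atTop (2400 : ℝ)]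
    with l h1 h2 h3 h4 h5 h6 h7
  have hl0 : 0 < l := by linarith
  have hl1 : 1 ≤ l := by linarith
  rw [div_le_iff₀ hκ] at h2 h4 h5
  rw [le_div_iff₀ (pow_pos hl0 _)] at h3 h6 h7
  rw [pow_one] at h6 h7
  refine ⟨h1, by linarith, ?_, ?_, ?_, ?_, ?_⟩
  · rw [le_div_iff₀ (by positivity)]
    calc C2 * l ^ E * (8 * k) = 8 * k * C2 * l ^ E := by ring
      _ ≤ Real.exp l := h3
  · rw [etaS_exp, div_mul_eq_mul_div, div_le_iff₀ (by positivity)]
    have g1 : (1 : ℝ) ≤ l ^ E := one_le_pow₀ hl1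
    have g2 : l * l ^ E ≤ l ^ C := by
      calc l * l ^ E = l ^ (E + 1) := by ring
        _ ≤ l ^ C := pow_le_pow_right₀ hl1 hE
    calc 6 * (2 * k * (C2 * l ^ E) + 7) ≤ 6 * (2 * k * C2 + 7) * l ^ E := by nlinarith
      _ ≤ (1 / 20000 * (l * κ)) * l ^ E :=
          mul_le_mul_of_nonneg_right (by linarith) (by positivity)
      _ = 1 / 20000 * (κ * (l * l ^ E)) := by ring
      _ ≤ 1 / 20000 * (κ * l ^ C) := by
          refine mul_le_mul_of_nonneg_left (mul_le_mul_of_nonneg_left g2 hκ.le) (by norm_num)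
  · rw [etaS_exp, div_mul_eq_mul_div, div_le_div_iff₀ (by positivity) (by positivity)]
    have g1 : l ^ 18 ≤ l ^ C := pow_le_pow_right₀ hl1 hC
    have g2 : 6 * (4 * k * l + 7) ≤ 6 * (4 * k + 7) * l := by nlinarith
    calc 6 * (4 * k * l + 7) * (2 * l ^ 14) ≤ 6 * (4 * k + 7) * l * (2 * l ^ 14) :=
          mul_le_mul_of_nonneg_right g2 (by positivity)
      _ = (2 * (6 * (4 * k + 7))) * l ^ 15 := by ring
      _ ≤ (l * κ) * l ^ 15 := mul_le_mul_of_nonneg_right h5 (by positivity)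
      _ = κ * l ^ 16 := by ring
      _ ≤ κ * l ^ 18 := mul_le_mul_of_nonneg_left (pow_le_pow_right₀ hl1 (by norm_num)) hκ.le
      _ ≤ κ * l ^ C := mul_le_mul_of_nonneg_left g1 hκ.le
      _ = 1 * (κ * l ^ C) := (one_mul _).symm
  · rw [le_div_iff₀ (by positivity)]
    linarith
  · rw [le_div_iff₀ (by positivity)]
    linarith

section
variable {ι : Type*} [Fintype ι] [DecidableEq ι] {prm : ι → ℕ}
variable {N' : ℕ} {mu : ℕ → ℝ} {G : ℤ → ℝ}
variable {k : ℕ} {κ C2 l : ℝ} {E C : ℕ}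

theorem exp14 : Real.exp (-14) ≤ xiS / 4 := by
  have h1 : (2.7 : ℝ) ≤ Real.exp 1 := by linarith [Real.exp_one_gt_d9]
  have h2 : (2.7 : ℝ) ^ 14 ≤ Real.exp 1 ^ 14 := pow_le_pow_left₀ (by norm_num) h1 14
  have h3 : Real.exp 14 = Real.exp 1 ^ 14 := by
    rw [← Real.exp_nat_mul]
    norm_num
  have h4 : (640000 : ℝ) ≤ Real.exp 14 := by
    rw [h3]
    exact le_trans (by norm_num) h2
  rw [Real.exp_neg]
  have h5 : xiS / 4 = (640000 : ℝ)⁻¹ := by
    unfold xiS
    norm_num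
  rw [h5]
  exact inv_anti₀ (by norm_num) h4

theorem prm_le (hW : ∀ i, prm i ∈ WS (Real.exp l)) (i : ι) :
    (prm i : ℝ) ≤ Real.exp (2 * l) := by
  have h1 := mem_WS.1 (hW i)
  have h2 := (Nat.le_floor_iff (by positivity)).1 h1.1
  refine h2.trans (le_of_eq ?_)
  rw [← Real.exp_nat_mul]
  norm_num

theorem bridge_atom (B : BN k κ C2 E C l) (h : StS1 k κ C (Real.exp l) N' mu)
    (hG : ∀ n : ℤ, G n = if 1 ≤ n then (N' : ℝ) * mu n.toNat else 0)
    [∀ i, NeZero (prm i)] (hW : ∀ i, prm i ∈ WS (Real.exp l)) (i : ι) (b : ZMod (prm i)) :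
    wS prm N' G i b = 0 ∨ Real.exp (-(3 * l)) ≤ wS prm N' G i b := by
  rcases wS_atom h hG hW i b with h1 | h1
  · exact Or.inl h1
  · right
    refine le_trans ?_ h1
    have h2 : (0 : ℝ) < prm i := by exact_mod_cast (mem_WS.1 (hW i)).2.pos
    rw [le_div_iff₀ h2]
    have hl := B.l1
    calc Real.exp (-(3 * l)) * prm i ≤ Real.exp (-(3 * l)) * Real.exp (2 * l) :=
          mul_le_mul_of_nonneg_left (prm_le hW i) (Real.exp_pos _).le
      _ = Real.exp (-l) := by
          rw [← Real.exp_add]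
          congr 1
          ring
      _ ≤ Real.exp (-14) := Real.exp_le_exp.2 (by linarith)
      _ ≤ xiS / 4 := exp14

theorem bridge_w2 (h : StS1 k κ C (Real.exp l) N' mu)
    (hG : ∀ n : ℤ, G n = if 1 ≤ n then (N' : ℝ) * mu n.toNat else 0)
    [∀ i, NeZero (prm i)] (hW : ∀ i, prm i ∈ WS (Real.exp l)) (i : ι) (b : ZMod (prm i)) :
    wS prm N' G i b = 0 ∨ (0 < uw prm i b ∧ uw prm i b ≤ Real.exp 14 * wS prm N' G i b) := by
  rcases wS_atom h hG hW i b with h1 | h1
  · exact Or.inl h1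
  · right
    have h2 : (0 : ℝ) < prm i := by exact_mod_cast (mem_WS.1 (hW i)).2.pos
    refine ⟨by unfold uw; exact inv_pos.2 h2, ?_⟩
    have h3 : Real.exp (-14) * ((prm i : ℕ) : ℝ)⁻¹ ≤ wS prm N' G i b := by
      refine le_trans ?_ h1
      rw [div_eq_mul_inv]
      exact mul_le_mul_of_nonneg_right exp14 (inv_pos.2 h2).le
    have h4 := mul_le_mul_of_nonneg_left h3 (Real.exp_pos 14).le
    rw [← mul_assoc, ← Real.exp_add, add_neg_cancel, Real.exp_zero, one_mul] at h4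
    exact h4

theorem exp_small {x y : ℝ} (hx0 : 0 ≤ x) (hx : x ≤ y / 2) (hy : y ≤ 1) :
    Real.exp x ≤ 1 + y := by
  have h1 : Real.exp x ≤ 1 / (1 - x) := by
    have h2 : x < 1 := by linarith
    rw [le_div_iff₀ (by linarith)]
    have h3 := Real.add_one_le_exp (-x)
    have h4 : Real.exp x * (-x + 1) ≤ Real.exp x * Real.exp (-x) :=
      mul_le_mul_of_nonneg_left h3 (Real.exp_pos _).le
    rw [← Real.exp_add, add_neg_cancel, Real.exp_zero] at h4
    linarith
  refine h1.trans ?_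
  rw [div_le_iff₀ (by linarith)]
  nlinarith

theorem bridge_up (B : BN k κ C2 E C l) (hκ : 0 < κ) (h : StS1 k κ C (Real.exp l) N' mu)
    (hG : ∀ n : ℤ, G n = if 1 ≤ n then (N' : ℝ) * mu n.toNat else 0)
    [∀ i, NeZero (prm i)] (hW : ∀ i, prm i ∈ WS (Real.exp l)) (i : ι) (b : ZMod (prm i)) :
    prm i * wS prm N' G i b ≤ 1 + 1 / l ^ 14 := by
  have hl := B.l1
  have hl0 : 0 < l := by linarith
  have h1 := wS_le hκ h hG hW (by rw [Real.log_exp]; exact hl0) (Real.exp_pos l)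
    (by rw [Real.log_exp]; exact B.l4) i b
  rw [Real.log_exp] at h1
  refine h1.trans (exp_small ?_ ?_ ?_)
  · unfold etaS
    rw [Real.log_exp]
    positivity
  · have h2 := B.e2
    have h3 : 1 / (2 * l ^ 14) = 1 / l ^ 14 / 2 := by
      field_simp
    rwa [h3] at h2
  · rw [div_le_one (by positivity)]
    exact one_le_pow₀ (by linarith)

/-- cells of the state are not heavy -/
theorem bridge_cell (B : BN k κ C2 E C l) (hk : 1 ≤ k) (hκ : 0 < κ) (hC2 : 0 ≤ C2)
    (h : StS1 k κ C (Real.exp l) N' mu)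
    {q c u v : ℕ} (hq : 1 ≤ q) (hc : c < q)
    (hqP : (q : ℝ) ≤ Real.exp (C2 * l ^ E)) (hu : 1 ≤ u) (hv : v ≤ N')
    (hN : N' ≤ 1000 * (v + 1 - u)) :
    q * ms mu N' (cl q c u v) * N' ≤ (1 + 1 / 10000) * ((v + 1 - u : ℕ) : ℝ) := by
  have hl := B.l1
  have hl0 : 0 < l := by linarith
  have hk1 : (1 : ℝ) ≤ k := by exact_mod_cast hk
  have hq0 : (0 : ℝ) < q := by exact_mod_cast hq
  have hlq : Real.log q ≤ C2 * l ^ E := by rwa [Real.log_le_iff_le_exp hq0]
  have hlq0 : 0 ≤ Real.log q := Real.log_nonneg (by exact_mod_cast hq)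
  have h8 : Real.exp l / (8 * k) ≤ Real.exp l / (4 * k) := by
    gcongr
    norm_num
  have h1 := cell_le hκ h (by rw [Real.log_exp]; exact hl0) (Real.exp_pos l) hq hc
    (hlq.trans (B.q8.trans h8)) hu hv hN
  refine h1.trans (mul_le_mul_of_nonneg_right (exp_small ?_ ?_ (by norm_num))
    (Nat.cast_nonneg _))
  · unfold etaS
    rw [Real.log_exp]
    positivity
  · have h2 := B.e1
    have h3 : etaS κ C (Real.exp l) * (2 * k * Real.log q + 7) ≤
        etaS κ C (Real.exp l) * (2 * k * (C2 * l ^ E) + 7) := by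
      refine mul_le_mul_of_nonneg_left ?_ ?_
      · have := mul_le_mul_of_nonneg_left hlq (show (0 : ℝ) ≤ 2 * k by positivity)
        linarith
      · unfold etaS
        rw [Real.log_exp]
        positivity
    linarith

/-- **(Qμ) for the laws of the cells of the state** -/
theorem bridge_Q (B : BN k κ C2 E C l) (hk : 1 ≤ k) (hκ : 0 < κ) (hC2 : 0 ≤ C2) (hC : 18 ≤ C)
    (h : StS1 k κ C (Real.exp l) N' mu)
    (hG : ∀ n : ℤ, G n = if 1 ≤ n then (N' : ℝ) * mu n.toNat else 0)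
    [∀ i, NeZero (prm i)] (hinj : Function.Injective prm)
    (hW : ∀ i, prm i ∈ WS (Real.exp l))
    {q c u v : ℕ} (hq : 1 ≤ q) (hqc : ∀ i, Nat.Coprime q (prm i))
    (hqP : (q : ℝ) ≤ Real.exp (C2 * l ^ E)) (hu : 1 ≤ u) (hv : v ≤ N')
    (hN : N' ≤ 1000 * (v + 1 - u))
    (hmass : ((v + 1 - u : ℕ) : ℝ) ≤ 200 * (q * ms mu N' (cl q c u v) * N')) :
    Ref (wS prm N' G) (push (redZ prm) (cellZ q c u v) G) ∧
    ∀ R : Finset ι, (R.card : ℝ) ≤ thB k * (Real.exp l / l) → ∀ x : ∀ i, ZMod (prm i),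
      Real.exp (-(1 / 400 * Real.exp l / l)) ≤
        gdw (wS prm N' G) (push (redZ prm) (cellZ q c u v) G) R x →
      lamS / l * ∑ j ∈ univ \ R,
          Di (wS prm N' G) (gdw (wS prm N' G) (push (redZ prm) (cellZ q c u v) G)) j R x ≤
        (1 / l ^ 16) * R.card + 7 -
          Real.log (gdw (uw prm) (push (redZ prm) (cellZ q c u v) G) R x) := by
  have hl := B.l1
  have hl0 : 0 < l := by linarith
  have hk1 : (1 : ℝ) ≤ k := by exact_mod_cast hk
  have hq0 : (0 : ℝ) < q := by exact_mod_cast hq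
  have hlaw := h.law
  have hN0 : (0 : ℝ) < N' := by exact_mod_cast hlaw.pos
  have hV : (0 : ℝ) < ((v + 1 - u : ℕ) : ℝ) := by
    have : 0 < v + 1 - u := by
      by_contra hcon
      have h0 : v + 1 - u = 0 := by omega
      rw [h0] at hN
      have := hlaw.pos
      omega
    exact_mod_cast this
  have hm : 0 < ms mu N' (cl q c u v) := by
    rcases (ms_nonneg hlaw (cl q c u v)).eq_or_lt with h0 | h0
    · rw [← h0] at hmass
      simp only [mul_zero, zero_mul] at hmass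
      linarith
    · exact h0
  have hqm : 0 < (q : ℝ) * ms mu N' (cl q c u v) * N' := by positivity
  refine ⟨ref_cell (prm := prm) hG hlaw hu hv hm, fun R hR x hx => ?_⟩
  have hlq : Real.log q ≤ C2 * l ^ E := by rwa [Real.log_le_iff_le_exp hq0]
  have hlq0 : 0 ≤ Real.log q := Real.log_nonneg (by exact_mod_cast hq)
  have e200 : (200 : ℝ) ≤ Real.exp 6 := by
    have h1 : (2.7 : ℝ) ≤ Real.exp 1 := by linarith [Real.exp_one_gt_d9]
    have h2 : (2.7 : ℝ) ^ 6 ≤ Real.exp 1 ^ 6 := pow_le_pow_left₀ (by norm_num) h1 6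
    have h3 : Real.exp 6 = Real.exp 1 ^ 6 := by
      rw [← Real.exp_nat_mul]
      norm_num
    rw [h3]
    exact le_trans (by norm_num) h2
  have hthick : Real.exp (-(Real.exp l / (200 * Real.log (Real.exp l)))) *
      ((v + 1 - u : ℕ) : ℝ) ≤
      gdw (wS prm N' G) (push (redZ prm) (cellZ q c u v) G) R x *
        (q * ms mu N' (cl q c u v)) * N' := by
    rw [Real.log_exp]
    have h1 : Real.exp (-(Real.exp l / (200 * l))) * 200 ≤
        Real.exp (-(1 / 400 * Real.exp l / l)) := by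
      have h2 := mul_le_mul_of_nonneg_left e200 (Real.exp_pos (-(Real.exp l / (200 * l)))).le
      rw [← Real.exp_add] at h2
      refine h2.trans (Real.exp_le_exp.2 ?_)
      have h3 := B.th
      have h4 : Real.exp l / (200 * l) = 2 * (Real.exp l / (400 * l)) := by
        field_simp
        norm_num
      have h5 : 1 / 400 * Real.exp l / l = Real.exp l / (400 * l) := by
        field_simp
      rw [h4, h5]
      linarith
    calc Real.exp (-(Real.exp l / (200 * l))) * ((v + 1 - u : ℕ) : ℝ)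
        ≤ Real.exp (-(Real.exp l / (200 * l))) *
            (200 * (q * ms mu N' (cl q c u v) * N')) :=
          mul_le_mul_of_nonneg_left hmass (Real.exp_pos _).le
      _ = Real.exp (-(Real.exp l / (200 * l))) * 200 *
            (q * ms mu N' (cl q c u v) * N') := by ring
      _ ≤ gdw (wS prm N' G) (push (redZ prm) (cellZ q c u v) G) R x *
            (q * ms mu N' (cl q c u v) * N') :=
          mul_le_mul_of_nonneg_right (h1.trans hx) hqm.le
      _ = _ := by ring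
  have hmain := pin_S_num hk hκ hC h hG hinj hW (Real.exp_pos l)
    (by rw [Real.log_exp]; linarith) (by rw [Real.log_exp]; exact B.hlk) hq hqc hu hv hN hm
    (hlq.trans B.q8) (by rw [Real.log_exp]; exact hR) hthick
  rw [Real.log_exp] at hmain
  have h3 : etaS κ C (Real.exp l) * (2 * k * Real.log q + 7) ≤ 1 / 20000 := by
    refine le_trans (mul_le_mul_of_nonneg_left ?_ ?_) B.e1
    · have := mul_le_mul_of_nonneg_left hlq (show (0 : ℝ) ≤ 2 * k by positivity)
      linarith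
    · unfold etaS
      rw [Real.log_exp]
      positivity
  have h4 : -6 ≤ Real.log (q * ms mu N' (cl q c u v) * N' / ((v + 1 - u : ℕ) : ℝ)) := by
    rw [Real.le_log_iff_exp_le (by positivity), le_div_iff₀ hV, Real.exp_neg]
    have h5 : (Real.exp 6)⁻¹ ≤ (200 : ℝ)⁻¹ := inv_anti₀ (by norm_num) e200
    calc (Real.exp 6)⁻¹ * ((v + 1 - u : ℕ) : ℝ) ≤ (200 : ℝ)⁻¹ * ((v + 1 - u : ℕ) : ℝ) :=
          mul_le_mul_of_nonneg_right h5 hV.le
      _ ≤ (200 : ℝ)⁻¹ * (200 * (q * ms mu N' (cl q c u v) * N')) :=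
          mul_le_mul_of_nonneg_left hmass (by norm_num)
      _ = q * ms mu N' (cl q c u v) * N' := by ring
  linarith

end

/-- capacity of the pins in the form of the local comparison -/
theorem thB_floor {k : ℕ} (hk : 1 ≤ k) {l : ℝ} (hl : 1 ≤ l)
    (h : 2 ≤ thB k * (Real.exp l / l)) :
    thB k / 2 * Real.exp l / l ≤ (⌊thB k * (Real.exp l / l)⌋₊ : ℝ) ∧
      (⌊thB k * (Real.exp l / l)⌋₊ : ℝ) ≤ thB k * (Real.exp l / l) := by
  have h1 := Nat.lt_floor_add_one (thB k * (Real.exp l / l))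
  have h2 := Nat.floor_le (show 0 ≤ thB k * (Real.exp l / l) by linarith)
  refine ⟨?_, h2⟩
  have h3 : thB k / 2 * Real.exp l / l = (thB k * (Real.exp l / l)) / 2 := by ring
  rw [h3]
  linarith

end Vale.Agent.P042.H359
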