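import Vale.Agent.P042.H359.Bridge

set_option autoImplicit false

/-!
Target S: the pinned inequality on the product space for the cells of the state `StS1`
(any base modulus coprime to the coordinates, any long window), and its numerical form.
-/

namespace Vale.Agent.P042.H359

open Finset Vale.Agent.P042.H779 Vale.Agent.P042.H779.Ab Vale.Agent.P042.H599
  Vale.Agent.P042.H945

set_option linter.unusedSectionVars false

section
variable {ι : Type*} [Fintype ι] [DecidableEq ι] {prm : ι → ℕ}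
variable {N' : ℕ} {mu : ℕ → ℝ} {G : ℤ → ℝ}
variable {k : ℕ} {κ : ℝ} {C : ℕ} {P : ℝ}

/-- uniform reference weights -/
noncomputable def uw (prm : ι → ℕ) (i : ι) (_ : ZMod (prm i)) : ℝ := ((prm i : ℕ) : ℝ)⁻¹

/-- the marginals of the whole state -/
noncomputable def wS (prm : ι → ℕ) [∀ i, NeZero (prm i)] (N' : ℕ) (G : ℤ → ℝ) (i : ι)
    (b : ZMod (prm i)) : ℝ := m1 (push (redZ prm) (Icc (1 : ℤ) N') G) i b

theorem mem_WS {p : ℕ} : p ∈ WS P ↔ p ≤ ⌊P ^ 2⌋₊ ∧ p.Prime := by
  unfold WS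
  rw [mem_filter, mem_range, Nat.lt_succ_iff]

theorem rst_ac (S : ℕ → Prop) : AC (rst mu N' S) mu N' := by
  classical
  intro i _ h
  unfold rst
  split_ifs
  · rw [h, zero_div]
  · rfl

theorem uw_sum [∀ i, NeZero (prm i)] (i : ι) : ∑ a, uw prm i a = 1 := by
  have h : ((prm i : ℕ) : ℝ) ≠ 0 := by exact_mod_cast NeZero.ne (prm i)
  unfold uw
  rw [sum_const, card_univ, ZMod.card, nsmul_eq_mul, mul_inv_cancel₀ h]

theorem uw_nonneg (i : ι) (a : ZMod (prm i)) : 0 ≤ uw prm i a :=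
  inv_nonneg.2 (Nat.cast_nonneg _)

/-- **(Q) on the product space**, any base modulus coprime to the coordinates -/
theorem pin_S (h : StS1 k κ C P N' mu)
    (hG : ∀ n : ℤ, G n = if 1 ≤ n then (N' : ℝ) * mu n.toNat else 0)
    [∀ i, NeZero (prm i)] (hinj : Function.Injective prm) (hW : ∀ i, prm i ∈ WS P)
    (hl : 0 < Real.log P)
    {q c u v : ℕ} (hq : 1 ≤ q) (hqc : ∀ i, Nat.Coprime q (prm i)) (hu : 1 ≤ u) (hv : v ≤ N')
    (hN : N' ≤ 1000 * (v + 1 - u)) (hm : 0 < ms mu N' (cl q c u v))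
    {R : Finset ι} {x : ∀ i, ZMod (prm i)}
    (hx : 0 < marg (push (redZ prm) (cellZ q c u v) G) R x)
    (hD : ((q * ∏ i ∈ R, prm i : ℕ) : ℝ) ≤ Real.exp (P / (4 * k)))
    (hthick : Real.exp (-(P / (100 * Real.log P))) * ((v + 1 - u : ℕ) : ℝ) ≤
      gdw (uw prm) (push (redZ prm) (cellZ q c u v) G) R x *
        (q * ms mu N' (cl q c u v)) * N') :
    lamS / Real.log P * ∑ j ∈ univ \ R,
        Di (wS prm N' G) (gdw (wS prm N' G) (push (redZ prm) (cellZ q c u v) G)) j R x +
      Real.log (gdw (uw prm) (push (redZ prm) (cellZ q c u v) G) R x) +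
      Real.log (q * ms mu N' (cl q c u v) * N' / ((v + 1 - u : ℕ) : ℝ)) ≤
    etaS κ C P * (2 * k * Real.log ((q * ∏ i ∈ R, prm i : ℕ) : ℝ) + 7) := by
  have hlaw := h.law
  have hN0 : (0 : ℝ) < N' := by exact_mod_cast hlaw.pos
  have hpr : ∀ i, (prm i).Prime := fun i => (mem_WS.1 (hW i)).2
  have hV : (0 : ℝ) < ((v + 1 - u : ℕ) : ℝ) := by
    have : 0 < v + 1 - u := by
      by_contra hcon
      have : N' ≤ 0 := by
        have : v + 1 - u = 0 := by omega
        rw [this] at hN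
        omega
      have := hlaw.pos
      omega
    exact_mod_cast this
  have hq0 : (0 : ℝ) < q := by exact_mod_cast hq
  have H : Ref (wS prm N' G) (push (redZ prm) (cellZ q c u v) G) :=
    ref_cell (prm := prm) hG hlaw hu hv hm
  obtain ⟨w0, hw0, h1, h2, h3⟩ := exists_cell' hpr hinj hG hlaw hq hqc hu hv H
    (nu := mu) (fun i b => w_eq hpr hG hlaw i b) hm hx
  have h2' : gdw (uw prm) (push (redZ prm) (cellZ q c u v) G) R x =
      (q * ∏ i ∈ R, prm i : ℕ) * ms mu N' (cl (q * ∏ i ∈ R, prm i) w0 u v) /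
          (q * ms mu N' (cl q c u v)) := h2
  have hqm : 0 < (q : ℝ) * ms mu N' (cl q c u v) := mul_pos hq0 hm
  have h4 : gdw (uw prm) (push (redZ prm) (cellZ q c u v) G) R x *
        (q * ms mu N' (cl q c u v)) =
      (q * ∏ i ∈ R, prm i : ℕ) * ms mu N' (cl (q * ∏ i ∈ R, prm i) w0 u v) := by
    rw [h2', div_mul_cancel₀ _ hqm.ne']
  have hDpos : 0 < q * ∏ i ∈ R, prm i := Nat.mul_pos hq (prod_pos fun i _ => (hpr i).pos)
  rw [h4] at hthick
  have hQ := h.Q (q * ∏ i ∈ R, prm i) w0 u v hDpos hD hw0 hu hv hN h1 hthick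
  -- the divergences
  have hlawr : Law (rst mu N' (cl (q * ∏ i ∈ R, prm i) w0 u v)) 1 N' := rst_law hlaw h1
  have h5 : ∑ j ∈ univ \ R,
        Di (wS prm N' G) (gdw (wS prm N' G) (push (redZ prm) (cellZ q c u v) G)) j R x ≤
      ∑ p ∈ WS P with ¬ p ∣ (q * ∏ i ∈ R, prm i),
        klc (rst mu N' (cl (q * ∏ i ∈ R, prm i) w0 u v)) mu N' p := by
    have e1 : ∑ j ∈ univ \ R,
        Di (wS prm N' G) (gdw (wS prm N' G) (push (redZ prm) (cellZ q c u v) G)) j R x =
        ∑ p ∈ (univ \ R).image prm,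
          klc (rst mu N' (cl (q * ∏ i ∈ R, prm i) w0 u v)) mu N' p := by
      rw [sum_image fun i _ j _ h => hinj h]
      exact sum_congr rfl fun j hj => h3 j (mem_sdiff.1 hj).2
    rw [e1]
    refine sum_le_sum_of_subset_of_nonneg ?_ ?_
    · intro p hp
      rw [mem_image] at hp
      obtain ⟨j, hj, rfl⟩ := hp
      rw [mem_filter]
      refine ⟨hW j, fun hdvd => ?_⟩
      rcases (hpr j).dvd_mul.1 hdvd with h6 | h6
      · have := Nat.Coprime.eq_one_of_dvd (hqc j).symm h6
        exact (hpr j).one_lt.ne' this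
      · rw [(hpr j).prime.dvd_finset_prod_iff] at h6
        obtain ⟨i, hi, h7⟩ := h6
        have h8 := (Nat.prime_dvd_prime_iff_eq (hpr j) (hpr i)).1 h7
        rw [hinj h8] at hj
        exact (mem_sdiff.1 hj).2 hi
    · intro p hp _
      exact klc_nonneg hlawr hlaw (rst_ac _) (mem_WS.1 (mem_filter.1 hp).1).2.pos
  have hlam : 0 ≤ lamS / Real.log P := by
    unfold lamS
    positivity
  have h6 := mul_le_mul_of_nonneg_left h5 hlam
  have h7 : Real.log (gdw (uw prm) (push (redZ prm) (cellZ q c u v) G) R x) +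
      Real.log (q * ms mu N' (cl q c u v) * N' / ((v + 1 - u : ℕ) : ℝ)) =
      Real.log ((q * ∏ i ∈ R, prm i : ℕ) * ms mu N' (cl (q * ∏ i ∈ R, prm i) w0 u v) * N' /
        ((v + 1 - u : ℕ) : ℝ)) := by
    have h8 : gdw (uw prm) (push (redZ prm) (cellZ q c u v) G) R x ≠ 0 := by
      rw [h2']
      have : (0 : ℝ) < ((q * ∏ i ∈ R, prm i : ℕ) : ℝ) := by exact_mod_cast hDpos
      exact (div_pos (mul_pos this h1) hqm).ne'
    rw [← Real.log_mul h8 (by positivity), ← mul_div_assoc, ← mul_assoc, h4]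
  linarith

/-- the atoms of the marginals -/
theorem wS_atom (h : StS1 k κ C P N' mu)
    (hG : ∀ n : ℤ, G n = if 1 ≤ n then (N' : ℝ) * mu n.toNat else 0)
    [∀ i, NeZero (prm i)] (hW : ∀ i, prm i ∈ WS P) (i : ι) (b : ZMod (prm i)) :
    wS prm N' G i b = 0 ∨ xiS / 4 / prm i ≤ wS prm N' G i b := by
  have hpr : ∀ i, (prm i).Prime := fun i => (mem_WS.1 (hW i)).2
  have e : wS prm N' G i b = cm mu 1 N' (prm i) b.val := w_eq hpr hG h.law i b
  rw [e]
  exact h.atom (prm i) (hW i) b.val (ZMod.val_lt b)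

/-- capacity of the pins -/
noncomputable def thB (k : ℕ) : ℝ := min (1 / 10000) (1 / (16 * k))

theorem thB_pos (hk : 1 ≤ k) : 0 < thB k := by
  have : (1 : ℝ) ≤ k := by exact_mod_cast hk
  unfold thB
  exact lt_min (by norm_num) (by positivity)

theorem thB_le : thB k ≤ 1 / 10000 := min_le_left _ _

theorem thB_le' (hk : 1 ≤ k) : thB k * (16 * k) ≤ 1 := by
  have : (1 : ℝ) ≤ k := by exact_mod_cast hk
  have h := min_le_right (1 / 10000 : ℝ) (1 / (16 * k))
  calc thB k * (16 * k) ≤ 1 / (16 * k) * (16 * k) :=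
        mul_le_mul_of_nonneg_right h (by positivity)
    _ = 1 := by field_simp

theorem log_prm_le (hP : 0 < P) (hW : ∀ i, prm i ∈ WS P) (i : ι) :
    Real.log (prm i) ≤ 2 * Real.log P := by
  have h1 := mem_WS.1 (hW i)
  have h2 : ((prm i : ℕ) : ℝ) ≤ P ^ 2 := (Nat.le_floor_iff (by positivity)).1 h1.1
  have h3 : (0 : ℝ) < prm i := by exact_mod_cast h1.2.pos
  have h4 := Real.log_le_log h3 h2
  rwa [Real.log_pow] at h4

theorem log_D_le (hP : 0 < P) (hW : ∀ i, prm i ∈ WS P) {q : ℕ} (hq : 1 ≤ q) (R : Finset ι) :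
    Real.log ((q * ∏ i ∈ R, prm i : ℕ) : ℝ) ≤ Real.log q + R.card * (2 * Real.log P) := by
  have h1 : ∀ i, (0 : ℝ) < prm i := fun i => by exact_mod_cast (mem_WS.1 (hW i)).2.pos
  have hq0 : (0 : ℝ) < q := by exact_mod_cast hq
  push_cast
  rw [Real.log_mul hq0.ne' (prod_pos fun i _ => h1 i).ne', Real.log_prod fun i _ => (h1 i).ne']
  have h2 := sum_le_sum fun i (_ : i ∈ R) => log_prm_le hP hW i
  rw [sum_const, nsmul_eq_mul] at h2
  linarith

/-- the uniform density from the density with respect to the marginals -/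
theorem gdw_uw_ge (h : StS1 k κ C P N' mu)
    (hG : ∀ n : ℤ, G n = if 1 ≤ n then (N' : ℝ) * mu n.toNat else 0)
    [∀ i, NeZero (prm i)] (hW : ∀ i, prm i ∈ WS P)
    {ν : (∀ i, ZMod (prm i)) → ℝ} (H : Ref (wS prm N' G) ν) {R : Finset ι}
    {x : ∀ i, ZMod (prm i)} (hx : 0 < marg ν R x) :
    gdw (wS prm N' G) ν R x * Real.exp (-(14 * R.card)) ≤ gdw (uw prm) ν R x := by
  have h14 : Real.exp (-14) ≤ xiS / 4 := by
    have h1 : (2.7 : ℝ) ≤ Real.exp 1 := by linarith [Real.exp_one_gt_d9]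
    have h2 : (2.7 : ℝ) ^ 14 ≤ Real.exp 1 ^ 14 := pow_le_pow_left₀ (by norm_num) h1 14
    have h3 : Real.exp 14 = Real.exp 1 ^ 14 := by
      rw [← Real.exp_nat_mul]
      norm_num
    have h4 : (640000 : ℝ) ≤ Real.exp 14 := by
      rw [h3]
      exact le_trans (by norm_num) h2
    rw [Real.exp_neg]
    have h5 : xiS / 4 = (640000 : ℝ)⁻¹ := by
      unfold xiS
      norm_num
    rw [h5]
    exact inv_anti₀ (by norm_num) h4
  have hw := prod_w_pos_of_marg H.prob H.w_nonneg H.ac hx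
  have hwi : ∀ i ∈ R, 0 < wS prm N' G i (x i) := by
    intro i hi
    rcases (H.w_nonneg i (x i)).eq_or_lt with h0 | h0
    · exact absurd (prod_eq_zero hi h0.symm) hw.ne'
    · exact h0
  have hpr : ∀ i, (0 : ℝ) < prm i := fun i => by exact_mod_cast (mem_WS.1 (hW i)).2.pos
  have h1 : ∏ i ∈ R, (Real.exp (-14) * uw prm i (x i)) ≤ ∏ i ∈ R, wS prm N' G i (x i) := by
    refine prod_le_prod (fun i _ => mul_nonneg (Real.exp_pos _).le (uw_nonneg _ _))
      fun i hi => ?_
    rcases wS_atom h hG hW i (x i) with h2 | h2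
    · exact absurd h2 (hwi i hi).ne'
    · refine le_trans ?_ h2
      unfold uw
      rw [← div_eq_mul_inv]
      exact div_le_div_of_nonneg_right h14 (hpr i).le
  rw [prod_mul_distrib, prod_const] at h1
  have h3 : Real.exp (-(14 * R.card)) = Real.exp (-14) ^ R.card := by
    rw [← Real.exp_nat_mul]
    congr 1
    ring
  have hu : 0 < ∏ i ∈ R, uw prm i (x i) := prod_pos fun i _ => by
    unfold uw
    exact inv_pos.2 (hpr i)
  unfold gdw
  rw [h3, div_mul_eq_mul_div, div_le_div_iff₀ hw hu]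
  calc marg ν R x * Real.exp (-14) ^ R.card * ∏ i ∈ R, uw prm i (x i)
      = marg ν R x * (Real.exp (-14) ^ R.card * ∏ i ∈ R, uw prm i (x i)) := by ring
    _ ≤ marg ν R x * ∏ i ∈ R, wS prm N' G i (x i) := mul_le_mul_of_nonneg_left h1 hx.le

/-- **the pinned inequality with numbers**: any base modulus `q` with `log q ≤ P / (8 k)`, at most
`thB k * P / log P` pins, absolute density of the cell at least `exp (-P / (200 log P))` -/
theorem pin_S_num (hk : 1 ≤ k) (hκ : 0 < κ) (hC : 18 ≤ C) (h : StS1 k κ C P N' mu)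
    (hG : ∀ n : ℤ, G n = if 1 ≤ n then (N' : ℝ) * mu n.toNat else 0)
    [∀ i, NeZero (prm i)] (hinj : Function.Injective prm) (hW : ∀ i, prm i ∈ WS P)
    (hP : 0 < P) (hl : 1 ≤ Real.log P) (hlk : 24 * k ≤ κ * Real.log P)
    {q c u v : ℕ} (hq : 1 ≤ q) (hqc : ∀ i, Nat.Coprime q (prm i)) (hu : 1 ≤ u) (hv : v ≤ N')
    (hN : N' ≤ 1000 * (v + 1 - u)) (hm : 0 < ms mu N' (cl q c u v))
    (hqP : Real.log q ≤ P / (8 * k))
    {R : Finset ι} (hR : (R.card : ℝ) ≤ thB k * (P / Real.log P)) {x : ∀ i, ZMod (prm i)}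
    (hthick : Real.exp (-(P / (200 * Real.log P))) * ((v + 1 - u : ℕ) : ℝ) ≤
      gdw (wS prm N' G) (push (redZ prm) (cellZ q c u v) G) R x *
        (q * ms mu N' (cl q c u v)) * N') :
    lamS / Real.log P * ∑ j ∈ univ \ R,
        Di (wS prm N' G) (gdw (wS prm N' G) (push (redZ prm) (cellZ q c u v) G)) j R x +
      Real.log (gdw (uw prm) (push (redZ prm) (cellZ q c u v) G) R x) +
      Real.log (q * ms mu N' (cl q c u v) * N' / ((v + 1 - u : ℕ) : ℝ)) ≤
    (1 / Real.log P ^ 16) * R.card + etaS κ C P * (2 * k * Real.log q + 7) := by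
  have hlaw := h.law
  have hl0 : 0 < Real.log P := by linarith
  have hk1 : (1 : ℝ) ≤ k := by exact_mod_cast hk
  have hN0 : (0 : ℝ) < N' := by exact_mod_cast hlaw.pos
  have hq0 : (0 : ℝ) < q := by exact_mod_cast hq
  have H : Ref (wS prm N' G) (push (redZ prm) (cellZ q c u v) G) :=
    ref_cell (prm := prm) hG hlaw hu hv hm
  have hV : (0 : ℝ) < ((v + 1 - u : ℕ) : ℝ) := by
    have : 0 < v + 1 - u := by
      by_contra hcon
      have h0 : v + 1 - u = 0 := by omega
      rw [h0] at hN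
      have := hlaw.pos
      omega
    exact_mod_cast this
  have hqm : 0 < (q : ℝ) * ms mu N' (cl q c u v) := mul_pos hq0 hm
  have hg : 0 < gdw (wS prm N' G) (push (redZ prm) (cellZ q c u v) G) R x := by
    have h1 : 0 < Real.exp (-(P / (200 * Real.log P))) * ((v + 1 - u : ℕ) : ℝ) := by positivity
    have h2 := h1.trans_le hthick
    by_contra hcon
    have h3 : gdw (wS prm N' G) (push (redZ prm) (cellZ q c u v) G) R x *
        (q * ms mu N' (cl q c u v)) * N' ≤ 0 :=
      mul_nonpos_of_nonpos_of_nonneg (mul_nonpos_of_nonpos_of_nonneg (not_lt.1 hcon) hqm.le)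
        hN0.le
    linarith
  have hx : 0 < marg (push (redZ prm) (cellZ q c u v) G) R x :=
    (gdw_pos_iff H.prob H.w_nonneg H.ac R x).1 hg
  have hlogD := log_D_le (prm := prm) hP hW hq R
  have hDpos : (0 : ℝ) < ((q * ∏ i ∈ R, prm i : ℕ) : ℝ) := by
    exact_mod_cast Nat.mul_pos hq (prod_pos fun i _ => (mem_WS.1 (hW i)).2.pos)
  have hR2 : (R.card : ℝ) * (2 * Real.log P) ≤ P / (8 * k) := by
    have h1 := mul_le_mul_of_nonneg_right hR (show 0 ≤ 2 * Real.log P by positivity)
    have h2 : thB k * (P / Real.log P) * (2 * Real.log P) = 2 * thB k * P := by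
      field_simp
    rw [h2] at h1
    refine h1.trans ?_
    rw [le_div_iff₀ (by positivity)]
    have h3 := thB_le' (k := k) hk
    nlinarith
  have hD : ((q * ∏ i ∈ R, prm i : ℕ) : ℝ) ≤ Real.exp (P / (4 * k)) := by
    rw [← Real.log_le_iff_le_exp hDpos]
    have h1 : P / (4 * k) = P / (8 * k) + P / (8 * k) := by
      field_simp
      norm_num
    linarith
  have hthick' : Real.exp (-(P / (100 * Real.log P))) * ((v + 1 - u : ℕ) : ℝ) ≤
      gdw (uw prm) (push (redZ prm) (cellZ q c u v) G) R x *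
        (q * ms mu N' (cl q c u v)) * N' := by
    have h1 := gdw_uw_ge h hG hW H hx
    have h2 := mul_le_mul_of_nonneg_right h1 (mul_nonneg hqm.le hN0.le)
    have h3 := mul_le_mul_of_nonneg_right hthick (Real.exp_pos (-(14 * (R.card : ℝ)))).le
    have h4 : Real.exp (-(P / (100 * Real.log P))) ≤
        Real.exp (-(P / (200 * Real.log P))) * Real.exp (-(14 * (R.card : ℝ))) := by
      rw [← Real.exp_add, Real.exp_le_exp]
      have h5 : (R.card : ℝ) ≤ 1 / 10000 * (P / Real.log P) :=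
        hR.trans (mul_le_mul_of_nonneg_right thB_le (by positivity))
      have h6 : P / (100 * Real.log P) = 1 / 100 * (P / Real.log P) := by field_simp
      have h7 : P / (200 * Real.log P) = 1 / 200 * (P / Real.log P) := by field_simp
      have h8 : 0 ≤ P / Real.log P := by positivity
      rw [h6, h7]
      linarith
    calc Real.exp (-(P / (100 * Real.log P))) * ((v + 1 - u : ℕ) : ℝ)
        ≤ Real.exp (-(P / (200 * Real.log P))) * Real.exp (-(14 * (R.card : ℝ))) *
            ((v + 1 - u : ℕ) : ℝ) := mul_le_mul_of_nonneg_right h4 hV.le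
      _ = Real.exp (-(P / (200 * Real.log P))) * ((v + 1 - u : ℕ) : ℝ) *
            Real.exp (-(14 * (R.card : ℝ))) := by ring
      _ ≤ _ := h3
      _ = gdw (wS prm N' G) (push (redZ prm) (cellZ q c u v) G) R x *
            Real.exp (-(14 * (R.card : ℝ))) * (q * ms mu N' (cl q c u v) * N') := by ring
      _ ≤ _ := h2
      _ = _ := by ring
  have hmain := pin_S h hG hinj hW hl0 hq hqc hu hv hN hm hx hD hthick'
  refine hmain.trans ?_
  have heta : 0 < etaS κ C P := by
    unfold etaS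
    positivity
  have heta2 : etaS κ C P * (4 * k * Real.log P) ≤ 1 / Real.log P ^ 16 := by
    unfold etaS
    rw [div_mul_eq_mul_div, div_le_div_iff₀ (by positivity) (by positivity)]
    have h1 : Real.log P ^ 18 ≤ Real.log P ^ C := pow_le_pow_right₀ hl hC
    calc 6 * (4 * k * Real.log P) * Real.log P ^ 16
        = (24 * k) * Real.log P ^ 17 := by ring
      _ ≤ (κ * Real.log P) * Real.log P ^ 17 :=
          mul_le_mul_of_nonneg_right hlk (by positivity)
      _ = κ * Real.log P ^ 18 := by ring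
      _ ≤ κ * Real.log P ^ C := mul_le_mul_of_nonneg_left h1 hκ.le
      _ = 1 * (κ * Real.log P ^ C) := (one_mul _).symm
  have h9 : etaS κ C P * (2 * k * Real.log ((q * ∏ i ∈ R, prm i : ℕ) : ℝ) + 7) ≤
      etaS κ C P * (2 * k * Real.log q + 7) + R.card * (etaS κ C P * (4 * k * Real.log P)) := by
    have h1 : 2 * k * Real.log ((q * ∏ i ∈ R, prm i : ℕ) : ℝ) + 7 ≤
        2 * k * Real.log q + 7 + R.card * (4 * k * Real.log P) := by
      have h2 := mul_le_mul_of_nonneg_left hlogD (show (0 : ℝ) ≤ 2 * k by positivity)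
      linarith
    calc etaS κ C P * (2 * k * Real.log ((q * ∏ i ∈ R, prm i : ℕ) : ℝ) + 7)
        ≤ etaS κ C P * (2 * k * Real.log q + 7 + R.card * (4 * k * Real.log P)) :=
          mul_le_mul_of_nonneg_left h1 heta.le
      _ = _ := by ring
  have h10 : (R.card : ℝ) * (etaS κ C P * (4 * k * Real.log P)) ≤
      R.card * (1 / Real.log P ^ 16) := mul_le_mul_of_nonneg_left heta2 (Nat.cast_nonneg _)
  linarith

/-- the masses of the cells of the state -/
theorem cell_le (hκ : 0 < κ) (h : StS1 k κ C P N' mu)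
    (hl : 0 < Real.log P) (hP : 0 < P) {q c u v : ℕ} (hq : 1 ≤ q) (hc : c < q)
    (hqP : Real.log q ≤ P / (4 * k)) (hu : 1 ≤ u) (hv : v ≤ N')
    (hN : N' ≤ 1000 * (v + 1 - u)) :
    q * ms mu N' (cl q c u v) * N' ≤
      Real.exp (etaS κ C P * (2 * k * Real.log q + 7)) * ((v + 1 - u : ℕ) : ℝ) := by
  have hlaw := h.law
  have hq0 : (0 : ℝ) < q := by exact_mod_cast hq
  have hq1 : (1 : ℝ) ≤ q := by exact_mod_cast hq
  have hlq : 0 ≤ Real.log q := Real.log_nonneg hq1
  have heta : 0 < etaS κ C P := by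
    unfold etaS
    positivity
  have hN0 : (0 : ℝ) < N' := by exact_mod_cast hlaw.pos
  have hV : (0 : ℝ) < ((v + 1 - u : ℕ) : ℝ) := by
    have : 0 < v + 1 - u := by
      by_contra hcon
      have h0 : v + 1 - u = 0 := by omega
      rw [h0] at hN
      have := hlaw.pos
      omega
    exact_mod_cast this
  have hE : (1 : ℝ) ≤ Real.exp (etaS κ C P * (2 * k * Real.log q + 7)) :=
    Real.one_le_exp (by positivity)
  rcases (ms_nonneg hlaw (cl q c u v)).eq_or_lt with h0 | h0
  · rw [← h0]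
    simp only [mul_zero, zero_mul]
    positivity
  by_cases hth : Real.exp (-(P / (100 * Real.log P))) * ((v + 1 - u : ℕ) : ℝ) ≤
      q * ms mu N' (cl q c u v) * N'
  · have hD : (q : ℝ) ≤ Real.exp (P / (4 * k)) := by
      rwa [← Real.log_le_iff_le_exp hq0]
    have h1 := h.Q q c u v hq hD hc hu hv hN h0 hth
    have h2 : 0 ≤ lamS / Real.log P * ∑ p ∈ WS P with ¬ p ∣ q,
        klc (rst mu N' (cl q c u v)) mu N' p := by
      refine mul_nonneg (by unfold lamS; positivity) (sum_nonneg fun p hp => ?_)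
      exact klc_nonneg (rst_law hlaw h0) hlaw (rst_ac _) (mem_WS.1 (mem_filter.1 hp).1).2.pos
    have h3 : 0 < q * ms mu N' (cl q c u v) * N' / ((v + 1 - u : ℕ) : ℝ) := by positivity
    have h4 : Real.log (q * ms mu N' (cl q c u v) * N' / ((v + 1 - u : ℕ) : ℝ)) ≤
        etaS κ C P * (2 * k * Real.log q + 7) := by linarith
    rw [Real.log_le_iff_le_exp h3, div_le_iff₀ hV] at h4
    exact h4
  · have h1 := (not_le.1 hth).le
    refine h1.trans (mul_le_mul_of_nonneg_right ?_ hV.le)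
    refine le_trans ?_ hE
    rw [Real.exp_le_one_iff]
    have : 0 < P / (100 * Real.log P) := by positivity
    linarith

/-- the marginals of the whole state are almost below uniform -/
theorem wS_le (hκ : 0 < κ) (h : StS1 k κ C P N' mu)
    (hG : ∀ n : ℤ, G n = if 1 ≤ n then (N' : ℝ) * mu n.toNat else 0)
    [∀ i, NeZero (prm i)] (hW : ∀ i, prm i ∈ WS P) (hl : 0 < Real.log P) (hP : 0 < P)
    (hlP : 2 * Real.log P ≤ P / (4 * k)) (i : ι) (b : ZMod (prm i)) :
    prm i * wS prm N' G i b ≤ Real.exp (etaS κ C P * (4 * k * Real.log P + 7)) := by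
  have hlaw := h.law
  have hpr : ∀ i, (prm i).Prime := fun i => (mem_WS.1 (hW i)).2
  have hN0 : (0 : ℝ) < N' := by exact_mod_cast hlaw.pos
  have heta : 0 < etaS κ C P := by
    unfold etaS
    positivity
  have e : wS prm N' G i b = cm mu 1 N' (prm i) b.val := w_eq hpr hG hlaw i b
  have e2 : cm mu 1 N' (prm i) b.val = ms mu N' (cl (prm i) b.val 1 N') := by
    classical
    rw [← ms_class]
    unfold ms SM
    refine sum_congr rfl fun j hj => ?_
    rw [mem_range] at hj
    have : cl (prm i) b.val 1 N' (1 + j) ↔ (1 + j) % prm i = b.val := by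
      unfold cl
      constructor
      · exact fun h => h.2.2
      · exact fun h => ⟨by omega, by omega, h⟩
    beta_reduce
    by_cases h1 : (1 + j) % prm i = b.val
    · rw [if_pos h1, if_pos (this.2 h1)]
    · rw [if_neg h1, if_neg fun h => h1 (this.1 h)]
  have h1 := log_prm_le hP hW i
  have h2 := cell_le (c := b.val) (u := 1) (v := N') hκ h hl hP (hpr i).one_lt.le
    (ZMod.val_lt b) (h1.trans hlP) le_rfl le_rfl (by omega)
  have h3 : N' + 1 - 1 = N' := by omega
  rw [h3] at h2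
  rw [e, e2]
  have h4 := le_of_mul_le_mul_right h2 hN0
  refine h4.trans (Real.exp_le_exp.2 (mul_le_mul_of_nonneg_left ?_ heta.le))
  have hk0 : (0 : ℝ) ≤ 2 * k := by positivity
  have := mul_le_mul_of_nonneg_left h1 hk0
  linarith

end

end Vale.Agent.P042.H359
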