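import Vale.Agent.P042.H359.Choose
import Vale.Agent.P042.H419.Ctx

set_option autoImplicit false

/-!
Target S: the main part of the local sum (leaf M).
-/

namespace Vale.Agent.P042.H359

open Finset Vale.Agent.P042.H779 Vale.Agent.P042.H779.Ab Vale.Agent.P042.H599
  Vale.Agent.P042.H945 Vale.Agent.P042.H74 Vale.Agent.P042.H452 Vale.Agent.P042.H482

set_option linter.unusedSectionVars false

theorem lamS_pos : 0 < lamS := by
  unfold lamS
  norm_num

theorem wS_eq {ι : Type*} [Fintype ι] [DecidableEq ι] {prm : ι → ℕ} [∀ i, NeZero (prm i)]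
    (hpr : ∀ i, (prm i).Prime) {N' : ℕ} {mu : ℕ → ℝ} (hlaw : Law mu 1 N') :
    wS prm N' (H419.GG N' mu) = H419.wS prm N' mu := by
  funext i b
  exact w_eq hpr (fun n => rfl) hlaw i b

theorem leafM : H419.LeafM := by
  intro k R E A' C κ th hk hR hE hA' hC hκ hκ8 hth
  have hk1 : 1 ≤ k := by omega
  have hkr : (1 : ℝ) ≤ k := by exact_mod_cast hk1
  obtain ⟨C2, hC2⟩ : ∃ x : ℝ, x = 2 * (sfac k * R : ℝ) + Real.log 4 := ⟨_, rfl⟩
  have hlog4 : 0 ≤ Real.log 4 := Real.log_nonneg (by norm_num)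
  have hsf : (0 : ℝ) ≤ sfac k * R := by positivity
  have hC20 : 0 ≤ C2 := by rw [hC2]; linarith
  obtain ⟨l1, hl1⟩ := exists_BN k hk1 κ C2 hκ hC20 E C (by omega) (by omega)
  obtain ⟨l2, hl2⟩ := Slocal_mix (48 * (4 * k)) 14 lamS th (1 / 400) 7 (by positivity)
    (by norm_num) lamS_pos hth (by norm_num) (by norm_num)
  refine ⟨Real.exp (max l1 (max l2 1)), fun P hP => ?_⟩
  intro ι _ _ prm _ f N' mu q1 z0 Hw h0 c1 c2 hprm S K e e' u u' s0 rho ee KP D m0 ND
  obtain ⟨l, hl⟩ : ∃ l : ℝ, l = Real.log P := ⟨_, rfl⟩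
  have hP0 : 0 < P := (Real.exp_pos _).trans_le hP
  have hPl : P = Real.exp l := by rw [hl, Real.exp_log hP0]
  have hlm : max l1 (max l2 1) ≤ l := by
    rw [hl]
    exact (Real.le_log_iff_exp_le hP0).2 hP
  have hll1 : l1 ≤ l := (le_max_left _ _).trans hlm
  have hll2 : l2 ≤ l := (le_max_left _ _).trans ((le_max_right _ _).trans hlm)
  have hll3 : 1 ≤ l := (le_max_right _ _).trans ((le_max_right _ _).trans hlm)
  have hl0 : 0 < l := by linarith
  have B := hl1 l hll1
  have hst : StS1 k κ C (Real.exp l) N' mu := hPl ▸ S.st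
  have hlaw := hst.law
  have hG : ∀ n : ℤ, H419.GG N' mu n = if 1 ≤ n then (N' : ℝ) * mu n.toNat else 0 :=
    fun n => rfl
  have hexp2 : P ^ 2 = Real.exp (2 * l) := by
    rw [hPl, ← Real.exp_nat_mul]
    norm_num
  -- the primes
  have hlogP : Real.log P = l := hl.symm
  have hpl : ∀ i, l ^ 20 ≤ (prm i : ℝ) ∧ (prm i : ℝ) ≤ Real.exp (2 * l) / l ^ 20 := by
    intro i
    have h1 := hprm.lo i
    have h2 := hprm.hi i
    rw [hlogP] at h1 h2
    rw [hexp2] at h2
    refine ⟨(pow_le_pow_right₀ hll3 hE).trans h1.le, h2.trans ?_⟩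
    exact div_le_div_of_nonneg_left (Real.exp_pos _).le (by positivity)
      (pow_le_pow_right₀ hll3 hA')
  have hW : ∀ i, prm i ∈ WS (Real.exp l) := by
    intro i
    rw [mem_WS]
    refine ⟨Nat.le_floor ?_, hprm.prime i⟩
    have h1 := (hpl i).2
    refine h1.trans ?_
    rw [← Real.exp_nat_mul]
    refine (div_le_self (Real.exp_pos _).le (one_le_pow₀ hll3)).trans (le_of_eq ?_)
    norm_num
  -- the modulus
  obtain ⟨q, hq⟩ : ∃ q : ℕ, q = qnul f q1 z0 := ⟨_, rfl⟩
  have hq1 : 1 ≤ q := by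
    rw [hq]
    have := S.c1lt
    omega
  have hqc : ∀ i, Nat.Coprime q (prm i) := by
    intro i
    refine Nat.Coprime.symm ((Nat.Prime.coprime_iff_not_dvd (hprm.prime i)).2 fun hd => ?_)
    have h1 := S.tiny.mem_of_dvd_qnul (hprm.prime i) (hq ▸ hd)
    unfold H419.Ts at h1
    rw [mem_filter, mem_range, Nat.lt_succ_iff] at h1
    have h2 : (prm i : ℝ) ≤ Real.log P ^ E :=
      (Nat.le_floor_iff (by rw [hlogP]; positivity)).1 h1.1
    exact absurd h2 (not_le.2 (hprm.lo i))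
  have hqP : (q : ℝ) ≤ Real.exp (C2 * l ^ E) := by
    rw [hq]
    refine S.qn_le.trans ?_
    rw [hlogP]
    have h1 : (sfac k * R : ℝ) ^ 2 ≤ Real.exp (2 * (sfac k * R : ℝ)) := by
      have h2 : (sfac k * R : ℝ) ≤ Real.exp (sfac k * R : ℝ) := by
        linarith [Real.add_one_le_exp (sfac k * R : ℝ)]
      have h3 := pow_le_pow_left₀ hsf h2 2
      rw [← Real.exp_nat_mul] at h3
      exact_mod_cast h3
    calc (sfac k * R : ℝ) ^ 2 * Real.exp (Real.log 4 * l ^ E)
        ≤ Real.exp (2 * (sfac k * R : ℝ)) * Real.exp (Real.log 4 * l ^ E) :=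
          mul_le_mul_of_nonneg_right h1 (Real.exp_pos _).le
      _ = Real.exp (2 * (sfac k * R : ℝ) + Real.log 4 * l ^ E) := (Real.exp_add _ _).symm
      _ ≤ Real.exp (C2 * l ^ E) := by
          apply Real.exp_le_exp.2
          rw [hC2, add_mul]
          have h4 : (1 : ℝ) ≤ l ^ E := one_le_pow₀ hll3
          have h5 : 2 * (sfac k * R : ℝ) * 1 ≤ 2 * (sfac k * R : ℝ) * l ^ E :=
            mul_le_mul_of_nonneg_left h4 (by linarith)
          linarith
  have hN0 : (0 : ℝ) < N' := by exact_mod_cast hlaw.pos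
  -- the two cells
  have hw1 := S.wN
  have hw2 := S.w1000
  have hw3 := S.h0pos
  have hm1 := S.m1
  have hm2 := S.m2
  rw [← hq] at hm1 hm2
  rw [sum_cellZ' hG (by omega) (by omega)] at hm1 hm2
  have e1 : 3 * Hw + 2 * h0 + 1 - (3 * Hw + h0 + 1) = h0 := by omega
  have e2 : h0 + 1 - 1 = h0 := by omega
  have hh0 : (0 : ℝ) ≤ h0 := Nat.cast_nonneg _
  have b1 := bridge_Q (q := q) (c := c1) (u := 3 * Hw + h0 + 1) (v := 3 * Hw + 2 * h0) B hk1 hκ
    hC20 (by omega) hst hG hprm.inj hW hq1 hqc hqP (by omega) (by omega) (by omega) (by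
      rw [e1]
      have h2 : (q : ℝ) * (N' * ms mu N' (cl q c1 (3 * Hw + h0 + 1) (3 * Hw + 2 * h0))) =
        q * ms mu N' (cl q c1 (3 * Hw + h0 + 1) (3 * Hw + 2 * h0)) * N' := by ring
      rw [h2] at hm1
      linarith)
  have b2 := bridge_Q (q := q) (c := c2) (u := 1) (v := h0) B hk1 hκ
    hC20 (by omega) hst hG hprm.inj hW hq1 hqc hqP (by omega) (by omega) (by omega) (by
      rw [e2]
      have h2 : (q : ℝ) * (N' * ms mu N' (cl q c2 1 h0)) =
        q * ms mu N' (cl q c2 1 h0) * N' := by ring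
      rw [h2] at hm2
      linarith)
  have hwS := wS_eq (prm := prm) hprm.prime hlaw
  -- the number of pins
  have hDc : (D : ℝ) ≤ thB k * (Real.exp l / l) := by
    have h1 := ND.hi
    have h2 := ND.hi'
    rw [hlogP, hPl] at h1 h2
    unfold thB
    rw [min_mul_of_nonneg _ _ (by positivity)]
    refine le_min ?_ ?_
    · rw [← mul_div_assoc, le_div_iff₀ hl0]
      linarith
    · rw [div_mul_div_comm, one_mul, le_div_iff₀ (by positivity)]
      calc (D : ℝ) * (16 * k * l) = 16 * k * D * l := by ring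
        _ ≤ Real.exp l := h1
  have hQ1 : ∀ R : Finset ι, R.card ≤ D → ∀ x, Real.exp (-(1 / 400 * Real.exp l / l)) ≤
      gdw (H419.wS prm N' mu) (push (redZ prm) (H419.cS1 f q1 z0 Hw h0 c1) (H419.GG N' mu)) R x →
      (lamS / l) * ∑ j ∈ univ \ R, Di (H419.wS prm N' mu) (gdw (H419.wS prm N' mu)
        (push (redZ prm) (H419.cS1 f q1 z0 Hw h0 c1) (H419.GG N' mu))) j R x ≤
      (1 / l ^ 16) * R.card + 7 - Real.log (gdw (uw prm)
        (push (redZ prm) (H419.cS1 f q1 z0 Hw h0 c1) (H419.GG N' mu)) R x) := by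
    intro R hR x hx
    have hRr : (R.card : ℝ) ≤ thB k * (Real.exp l / l) :=
      le_trans (by exact_mod_cast hR) hDc
    have h3 := b1.2 R hRr x
    rw [hwS] at h3
    unfold H419.cS1 at hx ⊢
    rw [← hq] at hx ⊢
    exact h3 hx
  have hQ2 : ∀ R : Finset ι, R.card ≤ D → ∀ x, Real.exp (-(1 / 400 * Real.exp l / l)) ≤
      gdw (H419.wS prm N' mu) (push (redZ prm) (H419.cS2 f q1 z0 h0 c2) (H419.GG N' mu)) R x →
      (lamS / l) * ∑ j ∈ univ \ R, Di (H419.wS prm N' mu) (gdw (H419.wS prm N' mu)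
        (push (redZ prm) (H419.cS2 f q1 z0 h0 c2) (H419.GG N' mu))) j R x ≤
      (1 / l ^ 16) * R.card + 7 - Real.log (gdw (uw prm)
        (push (redZ prm) (H419.cS2 f q1 z0 h0 c2) (H419.GG N' mu)) R x) := by
    intro R hR x hx
    have hRr : (R.card : ℝ) ≤ thB k * (Real.exp l / l) :=
      le_trans (by exact_mod_cast hR) hDc
    have h3 := b2.2 R hRr x
    rw [hwS] at h3
    unfold H419.cS2 at hx ⊢
    rw [← hq] at hx ⊢
    exact h3 hx
  have r1 : Ref (H419.wS prm N' mu)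
      (push (redZ prm) (H419.cS1 f q1 z0 Hw h0 c1) (H419.GG N' mu)) := by
    have := b1.1
    rw [hwS] at this
    unfold H419.cS1
    rw [← hq]
    exact this
  have r2 : Ref (H419.wS prm N' mu)
      (push (redZ prm) (H419.cS2 f q1 z0 h0 c2) (H419.GG N' mu)) := by
    have := b2.1
    rw [hwS] at this
    unfold H419.cS2
    rw [← hq]
    exact this
  have hat : ∀ i b, H419.wS prm N' mu i b = 0 ∨
      Real.exp (-(3 * l)) ≤ H419.wS prm N' mu i b := by
    intro i b
    have := bridge_atom B hst hG hW i b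
    rwa [hwS] at this
  have hw2' : ∀ i b, H419.wS prm N' mu i b = 0 ∨
      (0 < uw prm i b ∧ uw prm i b ≤ Real.exp 14 * H419.wS prm N' mu i b) := by
    intro i b
    have := bridge_w2 hst hG hW i b
    rwa [hwS] at this
  have hDlo : th * Real.exp l / l ≤ D := by
    have := ND.lo
    rwa [hlogP, hPl] at this
  have hfin := hl2 l hll2 ι prm (fun i => ZMod (prm i)) (H419.wS prm N' mu) (uw prm)
    (push (redZ prm) (H419.cS1 f q1 z0 Hw h0 c1) (H419.GG N' mu))
    (push (redZ prm) (H419.cS2 f q1 z0 h0 c2) (H419.GG N' mu)) D K (fun _ => 0) u u' s0 rho ee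
    (low ι m0) hprm.inj hpl hDlo r1 r2 hat uw_nonneg uw_sum hw2' hQ1 hQ2 KP.ob KP.rho_le KP.see
    (by rw [mem_low]; simp)
    (fun B hB C hCB => by
      rw [mem_low] at hB ⊢
      exact (card_le_card hCB).trans hB)
    (fun B hB => by
      rw [mem_low] at hB
      have := ND.m16
      omega)
  exact hfin

end Vale.Agent.P042.H359
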